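/-
P043 (helper18): the finite certificate of the irrational shear in three dimensions.

Three tiles of `ℤ²`, periodic mod `16ℤ × 8ℤ`, have a common complement which is a union of
cosets of `⟨(0,4)⟩` and of `⟨(8,4)⟩`, but none made of one kind of coset only.
-/
import Mathlib

namespace Vale.Agent.P043.Shear

open Finset

abbrev Z2 := ℤ × ℤ
abbrev G := ZMod 16 × ZMod 8

/-- Reduction mod `16ℤ × 8ℤ`. -/
def red (p : Z2) : G := ((p.1 : ZMod 16), (p.2 : ZMod 8))

@[simp] lemma red_add (p q : Z2) : red (p + q) = red p + red q := by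
  simp [red]

@[simp] lemma red_sub (p q : Z2) : red (p - q) = red p - red q := by
  simp [red]

/-- The three tiles. -/
def tileList : Fin 3 → List Z2 := ![
  [(0,5),(1,5),(2,1),(3,5),(4,5),(5,5),(6,5),(7,5),(8,13),(9,5),(10,1),(11,5),(12,5),(13,5),(14,5),
    (15,5)],
  [(0,0),(0,6),(2,0),(2,6),(4,0),(4,2),(6,1),(6,3),(8,1),(8,3),(10,3),(10,5),(12,3),(12,5),(14,4),
    (14,6)],
  [(0,4),(1,5),(2,2),(3,3),(4,4),(5,5),(6,2),(7,3),(8,4),(9,5),(10,2),(11,3),(12,4),(13,5),(14,2),
    (15,3)]]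

def tile (i : Fin 3) : Finset Z2 := (tileList i).toFinset

/-- `B` is an exact complement of every tile. -/
def Common (B : Set Z2) : Prop := ∀ i : Fin 3, ∀ y : Z2, ∃! f : Z2, f ∈ tile i ∧ y - f ∈ B

def la : Z2 := (0, 4)
def lb : Z2 := (8, 4)
def ll : Z2 := (16, 0)

/-- Nonzero differences that a common complement avoids. -/
def diffList : List G :=
  ((List.finRange 3).flatMap fun i =>
    (tileList i).flatMap fun a => ((tileList i).filter (· ≠ a)).map fun b => red a - red b).dedup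

def allowA : List G :=
  [(0,1),(0,3),(0,5),(0,7),(1,2),(1,3),(1,6),(1,7),(3,1),(3,2),(3,5),(3,6),(5,2),(5,3),(5,6),(5,7),
   (7,1),(7,2),(7,5),(7,6),(8,2),(8,6),(9,2),(9,3),(9,6),(9,7),(11,1),(11,2),(11,5),(11,6),(13,2),
   (13,3),(13,6),(13,7),(15,1),(15,2),(15,5),(15,6)]

def allowB : List G :=
  [(1,2),(1,3),(1,6),(1,7),(2,5),(3,1),(3,2),(3,5),(3,6),(4,6),(5,2),(5,3),(5,6),(5,7),(6,7),(7,1),
   (7,2),(7,5),(7,6),(9,2),(9,3),(9,6),(9,7),(10,1),(11,1),(11,2),(11,5),(11,6),(12,2),(13,2),(13,3),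
   (13,6),(13,7),(14,3),(15,1),(15,2),(15,5),(15,6)]

/-- Outside `allow`, an element or its `g`-translate is a difference. -/
def Covered (g : G) (allow : List G) : Prop :=
  ∀ t : G, t ∈ allow ∨ t = 0 ∨ t = g ∨ t ∈ diffList ∨ t + g ∈ diffList

def NoTriangle (allow : List G) : Prop :=
  ∀ x ∈ allow, ∀ y ∈ allow, y - x ∈ allow → ∀ z ∈ allow, z - x ∈ allow → z - y ∉ allow

instance (g : G) (allow : List G) : Decidable (Covered g allow) := by
  unfold Covered; infer_instance

instance (allow : List G) : Decidable (NoTriangle allow) := by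
  unfold NoTriangle; infer_instance

lemma coveredA : Covered (red la) allowA := by decide +kernel
lemma coveredB : Covered (red lb) allowB := by decide +kernel
lemma noTriA : NoTriangle allowA := by decide +kernel
lemma noTriB : NoTriangle allowB := by decide +kernel

lemma exists_int_of_red {p q : Z2} (h : red p = red q) :
    ∃ m n : ℤ, p = q + (16 * m, 8 * n) := by
  simp only [red, Prod.mk.injEq] at h
  obtain ⟨h1, h2⟩ := h
  rw [eq_comm, ZMod.intCast_eq_intCast_iff_dvd_sub] at h1 h2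
  obtain ⟨m, hm⟩ := h1
  obtain ⟨n, hn⟩ := h2
  exact ⟨m, n, Prod.ext (by simp at hm ⊢; omega) (by simp at hn ⊢; omega)⟩

lemma kernel_inv {B : Set Z2} (h1 : ∀ p, p + (16, 0) ∈ B ↔ p ∈ B)
    (h2 : ∀ p, p + (0, 8) ∈ B ↔ p ∈ B) {p q : Z2} (h : red p = red q) : p ∈ B ↔ q ∈ B := by
  have s1 : ∀ (m : ℤ) p, p + (16 * m, 0) ∈ B ↔ p ∈ B := by
    intro m
    induction m using Int.induction_on with
    | zero => intro p; simp [← Prod.zero_eq_mk]
    | succ m ih =>
      intro p; rw [← ih p, ← h1 (p + (16 * (m : ℤ), 0))]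
      congr! 1
      ext <;> simp; ring
    | pred m ih =>
      intro p; rw [← ih p, ← h1 (p + (16 * (-(m : ℤ) - 1), 0))]
      congr! 1
      ext <;> simp; ring
  have s2 : ∀ (n : ℤ) p, p + (0, 8 * n) ∈ B ↔ p ∈ B := by
    intro n
    induction n using Int.induction_on with
    | zero => intro p; simp [← Prod.zero_eq_mk]
    | succ m ih =>
      intro p; rw [← ih p, ← h2 (p + (0, 8 * (m : ℤ)))]
      congr! 1
      ext <;> simp; ring
    | pred m ih =>
      intro p; rw [← ih p, ← h2 (p + (0, 8 * (-(m : ℤ) - 1)))]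
      congr! 1
      ext <;> simp; ring
  obtain ⟨m, n, rfl⟩ := exists_int_of_red h
  rw [← s2 n q, ← s1 m (q + (0, 8 * n))]
  congr! 1
  ext <;> simp

/-- No common complement is made of the cosets of one step `g` only. -/
lemma no_pure {B : Set Z2} (hB : Common B) (g : Z2) (allow : List G)
    (hcov : Covered (red g) allow) (hno : NoTriangle allow)
    (h1 : ∀ p, p + (16, 0) ∈ B ↔ p ∈ B) (h2 : ∀ p, p + (0, 8) ∈ B ↔ p ∈ B)
    (hg : ∀ p, p + g ∈ B ↔ p ∈ B) : False := by
  classical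
  set Q : Finset G := univ.filter fun q => ∃ p : Z2, red p = q ∧ p ∈ B with hQ
  have memQ : ∀ {p}, p ∈ B → red p ∈ Q := fun {p} h => by
    simp only [hQ, mem_filter, mem_univ, true_and]; exact ⟨p, rfl, h⟩
  have ofQ : ∀ {q}, q ∈ Q → ∃ p : Z2, red p = q ∧ p ∈ B := fun {q} h => by
    simpa [hQ] using h
  -- differences of `Q` avoid the differences of the tiles
  have avoid : ∀ q ∈ Q, ∀ q' ∈ Q, q - q' ∉ diffList := by
    intro q hq q' hq' hd
    simp only [diffList, List.mem_dedup, List.mem_flatMap, List.mem_map, List.mem_filter,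
      decide_eq_true_eq] at hd
    obtain ⟨i, -, a, ha, b, ⟨hb, hne⟩, e⟩ := hd
    obtain ⟨p, rfl, hp⟩ := ofQ hq
    obtain ⟨p', rfl, hp'⟩ := ofQ hq'
    refine hne ((hB i (p' + a)).unique ⟨List.mem_toFinset.mpr hb, ?_⟩
      ⟨List.mem_toFinset.mpr ha, by simpa using hp'⟩)
    refine (kernel_inv h1 h2 ?_).mpr hp
    simp only [red_sub, red_add]
    linear_combination (norm := abel) e
  have closed : ∀ q ∈ Q, q + red g ∈ Q := by
    intro q hq
    obtain ⟨p, rfl, hp⟩ := ofQ hq
    rw [← red_add]; exact memQ ((hg p).mpr hp)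
  -- differences of `Q` lie in `allow`
  have inAllow : ∀ q ∈ Q, ∀ q' ∈ Q, q' ≠ q → q' ≠ q + red g → q' - q ∈ allow := by
    intro q hq q' hq' n0 n1
    rcases hcov (q' - q) with h | h | h | h | h
    · exact h
    · exact absurd (sub_eq_zero.mp h) n0
    · exact absurd (by rw [← h]; abel) n1
    · exact absurd h (avoid _ hq' _ hq)
    · rw [sub_add_eq_add_sub] at h
      exact absurd h (avoid _ (closed _ hq') _ hq)
  -- `Q` has at least eight elements
  have hcard : 8 ≤ Q.card := by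
    have key : (univ : Finset G) ⊆ (Q ×ˢ tile 0).image fun x => x.1 + red x.2 := by
      intro y _
      obtain ⟨x, rfl⟩ : ∃ x : Z2, red x = y :=
        ⟨((y.1.val : ℤ), (y.2.val : ℤ)), by simp [red]⟩
      obtain ⟨f, ⟨hf, hfB⟩, -⟩ := hB 0 x
      exact mem_image.mpr ⟨(red (x - f), f), mem_product.mpr ⟨memQ hfB, hf⟩, by simp⟩
    have h128 := (card_le_card key).trans card_image_le
    rw [card_product, card_univ] at h128
    have c1 : Fintype.card G = 128 := by simp [G]
    have c2 : (tile 0).card = 16 := by decide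
    rw [c1, c2] at h128
    omega
  -- peel off four cosets
  have peel : ∀ S : Finset G, 1 ≤ S.card → ∃ x ∈ S, ∀ T : Finset G,
      T = S \ {x, x + red g} → S.card ≤ T.card + 2 := by
    intro S hS
    obtain ⟨x, hx⟩ := card_pos.mp hS
    refine ⟨x, hx, fun T hT => ?_⟩
    subst hT
    have := card_le_card_sdiff_add_card (s := S) (t := {x, x + red g})
    have := card_le_two (a := x) (b := x + red g)
    omega
  obtain ⟨a, ha, hca⟩ := peel Q (by omega)
  have ca := hca _ rfl
  obtain ⟨b, hb, hcb⟩ := peel (Q \ {a, a + red g}) (by omega)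
  have cb := hcb _ rfl
  obtain ⟨c, hc, hcc⟩ := peel ((Q \ {a, a + red g}) \ {b, b + red g}) (by omega)
  have cc := hcc _ rfl
  obtain ⟨d, hd⟩ := card_pos.mp (show 0 < (((Q \ {a, a + red g}) \ {b, b + red g}) \
    {c, c + red g}).card by omega)
  simp only [mem_sdiff, mem_insert, mem_singleton, not_or] at hb hc hd
  obtain ⟨hbQ, hba⟩ := hb
  obtain ⟨⟨hcQ, hca⟩, hcb⟩ := hc
  obtain ⟨⟨⟨hdQ, hda⟩, hdb⟩, hdc⟩ := hd
  refine hno (b - a) (inAllow a ha b hbQ hba.1 hba.2) (c - a) (inAllow a ha c hcQ hca.1 hca.2) ?_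
    (d - a) (inAllow a ha d hdQ hda.1 hda.2) ?_ ?_
  · simpa using inAllow b hbQ c hcQ hcb.1 hcb.2
  · simpa using inAllow b hbQ d hdQ hdb.1 hdb.2
  · simpa using inAllow c hcQ d hdQ hdc.1 hdc.2

lemma no_pure_a {B : Set Z2} (hB : Common B) (hl : ∀ p, p + ll ∈ B ↔ p ∈ B)
    (ha : ∀ p, p + la ∈ B ↔ p ∈ B) : False := by
  refine no_pure hB la allowA coveredA noTriA hl (fun p => ?_) ha
  rw [← ha p, ← ha (p + la)]
  congr! 1
  ext <;> simp [la]; ring

lemma no_pure_b {B : Set Z2} (hB : Common B) (hl : ∀ p, p + ll ∈ B ↔ p ∈ B)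
    (hb : ∀ p, p + lb ∈ B ↔ p ∈ B) : False := by
  refine no_pure hB lb allowB coveredB noTriB hl (fun p => ?_) hb
  have e : p + (0, 8) + ll = p + lb + lb := by ext <;> simp [ll, lb] <;> ring
  rw [← hl (p + (0, 8)), e, hb, hb]

end Vale.Agent.P043.Shear
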