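/-
P043 (helper18): combinatorics of the sheared point sets over `ℤ² × ℝ`.

`Shear A` collects what the gadgets force; such sets exist and none has three independent periods.
-/
import Vale.Agent.P043.Shear.Cert

namespace Vale.Agent.P043.Shear

set_option linter.dupNamespace false

abbrev Pt := Z2 × ℝ

/-- The drift. -/
noncomputable def eps : ℝ := Real.sqrt 2 / 16

lemma eps_pos : 0 < eps := by unfold eps; positivity

lemma eps_lt : eps < 1 / 8 := by
  have : Real.sqrt 2 < 2 := by rw [Real.sqrt_lt' (by norm_num)]; norm_num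
  unfold eps; linarith

lemma eps_irrational : Irrational eps := by
  unfold eps
  exact_mod_cast irrational_sqrt_two.div_natCast (show (16 : ℕ) ≠ 0 by norm_num)

noncomputable def pa : Pt := (la, eps)
noncomputable def pb : Pt := (lb, 0)
noncomputable def pl : Pt := (ll, 0)

/-- The horizontal projection. -/
def proj (A : Set Pt) : Set Z2 := {p | ∃ z : ℝ, (p, z) ∈ A}

/-- What the gadgets force on a set of translations. -/
structure Shear (A : Set Pt) : Prop where
  unit : ∀ c : Pt, c + (0, (1 : ℝ)) ∈ A ↔ c ∈ A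
  column : ∀ p z z', (p, z) ∈ A → (p, z') ∈ A → ∃ n : ℤ, z' = z + n
  rigid : ∀ c : Pt, c + pl ∈ A ↔ c ∈ A
  pred : ∀ c ∈ A, Xor (c - pa ∈ A) (c - pb ∈ A)
  succ : ∀ c ∈ A, Xor (c + pa ∈ A) (c + pb ∈ A)
  apart : ∀ c ∈ A, c + pa + pb ∉ A
  common : Common (proj A)

def typeA (A : Set Pt) : Set Pt := {c | c ∈ A ∧ c + pa ∈ A}
def typeB (A : Set Pt) : Set Pt := {c | c ∈ A ∧ c + pb ∈ A}

/-- The translations that keep `S`. -/
def stab (S : Set Pt) : AddSubgroup Pt where
  carrier := {v | ∀ c, c + v ∈ S ↔ c ∈ S}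
  zero_mem' := fun c => by simp
  add_mem' := fun {v w} hv hw c => by rw [← add_assoc, hw, hv]
  neg_mem' := fun {v} hv c => by rw [← hv (c + -v), neg_add_cancel_right]

lemma stab_type {A : Set Pt} {v w : Pt} (hv : v ∈ stab A) :
    v ∈ stab {c | c ∈ A ∧ c + w ∈ A} := by
  intro c
  show (c + v ∈ A ∧ c + v + w ∈ A) ↔ c ∈ A ∧ c + w ∈ A
  rw [hv c, add_right_comm, hv (c + w)]

variable {A : Set Pt} (h : Shear A)
include h

lemma pa_stab : pa ∈ stab (typeA A) := by
  intro c
  constructor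
  · rintro ⟨h1, h2⟩
    refine ⟨?_, h1⟩
    rcases h.pred _ h1 with ⟨m, -⟩ | ⟨m, -⟩
    · simpa using m
    · exfalso
      refine h.apart _ m ?_
      rwa [add_right_comm, sub_add_cancel]
  · rintro ⟨h1, h2⟩
    refine ⟨h2, ?_⟩
    rcases h.succ _ h2 with ⟨m, -⟩ | ⟨m, -⟩
    · exact m
    · exact absurd m (h.apart c h1)

lemma pb_stab : pb ∈ stab (typeB A) := by
  intro c
  constructor
  · rintro ⟨h1, h2⟩
    refine ⟨?_, h1⟩
    rcases h.pred _ h1 with ⟨m, -⟩ | ⟨m, -⟩
    · exfalso
      refine h.apart _ m ?_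
      rwa [sub_add_cancel]
    · simpa using m
  · rintro ⟨h1, h2⟩
    refine ⟨h2, ?_⟩
    rcases h.succ _ h2 with ⟨m, -⟩ | ⟨m, -⟩
    · exact absurd (show c + pa + pb ∈ A by rwa [add_right_comm]) (h.apart c h1)
    · exact m

lemma split {c : Pt} (hc : c ∈ A) : c ∈ typeA A ∨ c ∈ typeB A := by
  rcases h.succ c hc with ⟨m, -⟩ | ⟨m, -⟩
  · exact Or.inl ⟨hc, m⟩
  · exact Or.inr ⟨hc, m⟩

omit h in
lemma proj_inv {g : Pt} (hg : g ∈ stab A) (p : Z2) :
    p + g.1 ∈ proj A ↔ p ∈ proj A := by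
  constructor
  · rintro ⟨z, hz⟩
    refine ⟨z - g.2, (hg _).mp ?_⟩
    rwa [show (p, z - g.2) + g = (p + g.1, z) by ext <;> simp]
  · rintro ⟨z, hz⟩
    exact ⟨z + g.2, show (p, z) + g ∈ A from (hg _).mpr hz⟩

lemma typeA_nonempty : (typeA A).Nonempty := by
  by_contra hne
  have e : typeB A = A := Set.ext fun c => ⟨fun hc => hc.1, fun hc =>
    (split h hc).resolve_left fun ha => hne ⟨c, ha⟩⟩
  have hb : pb ∈ stab A := e ▸ pb_stab h
  exact no_pure_b h.common (fun p => proj_inv (show pl ∈ stab A from h.rigid) p)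
    (fun p => proj_inv hb p)

lemma typeB_nonempty : (typeB A).Nonempty := by
  by_contra hne
  have e : typeA A = A := Set.ext fun c => ⟨fun hc => hc.1, fun hc =>
    (split h hc).resolve_right fun hb => hne ⟨c, hb⟩⟩
  have ha : pa ∈ stab A := e ▸ pa_stab h
  exact no_pure_a h.common (fun p => proj_inv (show pl ∈ stab A from h.rigid) p)
    (fun p => proj_inv ha p)

/-- A vertical element of the stabiliser of a nonempty part of `A` is integral. -/
lemma vertical {S : Set Pt} (hS : S ⊆ A) (hne : S.Nonempty) {v : Pt} (hv : v ∈ stab S)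
    (h0 : v.1 = 0) : ∃ n : ℤ, v.2 = n := by
  obtain ⟨⟨p, z⟩, hc⟩ := hne
  have h2 : (p, z) + v ∈ A := hS ((hv _).mpr hc)
  have e : (p, z) + v = (p, z + v.2) := by ext <;> simp [h0]
  rw [e] at h2
  obtain ⟨n, hn⟩ := h.column _ _ _ (hS hc) h2
  exact ⟨n, by linarith⟩

/-- There are no two periods with independent horizontal parts. -/
theorem no_periods (v w : Pt) (hv : v ∈ stab A) (hw : w ∈ stab A) :
    v.1.1 * w.1.2 - v.1.2 * w.1.1 = 0 := by
  by_contra hD
  set D : ℤ := v.1.1 * w.1.2 - v.1.2 * w.1.1 with hDdef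
  -- a period over `D` times any horizontal vector
  have per : ∀ g : Z2, ∃ q ∈ stab A, q.1 = D • g := by
    intro g
    refine ⟨(g.1 * w.1.2 - g.2 * w.1.1) • v + (g.2 * v.1.1 - g.1 * v.1.2) • w,
      add_mem (zsmul_mem hv _) (zsmul_mem hw _), ?_⟩
    ext <;> simp [hDdef] <;> ring
  obtain ⟨q, hq, eq⟩ := per la
  obtain ⟨q', hq', eq'⟩ := per lb
  obtain ⟨q'', hq'', eq''⟩ := per ll
  obtain ⟨n, hn⟩ := vertical h (fun _ hc => hc.1) (typeA_nonempty h)
    (sub_mem (stab_type hq) (zsmul_mem (pa_stab h) D)) (by simp [eq, pa])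
  obtain ⟨n', hn'⟩ := vertical h (fun _ hc => hc.1) (typeB_nonempty h)
    (sub_mem (stab_type hq') (zsmul_mem (pb_stab h) D)) (by simp [eq', pb])
  obtain ⟨c, hc⟩ := typeA_nonempty h
  obtain ⟨n'', hn''⟩ := vertical h subset_rfl ⟨c, hc.1⟩
    (sub_mem hq'' (zsmul_mem (show pl ∈ stab A from h.rigid) D)) (by simp [eq'', pl])
  obtain ⟨k, hk⟩ := vertical h subset_rfl ⟨c, hc.1⟩
    (sub_mem (sub_mem (zsmul_mem hq' 2) hq'') (zsmul_mem hq 2)) (by
      show 2 • q'.1 - q''.1 - 2 • q.1 = 0
      rw [eq, eq', eq'']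
      ext <;> simp [la, lb, ll] <;> ring)
  simp [pa, pb, pl] at hn hn' hn'' hk
  have e : (((-2 * D : ℤ)) : ℝ) * eps = ((k - 2 * n' + n'' + 2 * n : ℤ) : ℝ) := by
    push_cast; linarith
  exact (eps_irrational.intCast_mul (by omega : (-2 * D : ℤ) ≠ 0)).ne_int _ e

omit h

/-! ### Existence -/

def patA : List G := [(5, 2), (5, 6), (5, 3), (5, 7)]
def patB : List G := [(0, 0), (8, 4), (10, 1), (2, 5)]

lemma pat_tiles : ∀ (i : Fin 3) (y : G),
    ((tileList i).filter fun f => y - red f ∈ patA ++ patB).length = 1 := by decide +kernel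

lemma tile_nodup : ∀ i, (tileList i).Nodup := by decide +kernel

lemma pat_step : ∀ g : G,
    (g + red la ∈ patA ↔ g ∈ patA) ∧ (g + red lb ∈ patB ↔ g ∈ patB) ∧ ¬ (g ∈ patA ∧ g ∈ patB) := by
  decide +kernel

lemma pat_crossA : ∀ g ∈ patA,
    g + red lb ∉ patA ++ patB ∧ g - red lb ∉ patA ++ patB := by decide +kernel

lemma pat_crossB : ∀ g ∈ patB,
    g + red la ∉ patA ++ patB ∧ g - red la ∉ patA ++ patB := by decide +kernel

lemma pat_apart : ∀ g ∈ patA ++ patB, g + red la + red lb ∉ patA ++ patB := by decide +kernel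

/-- The height over a horizontal position. -/
noncomputable def height (p : Z2) : ℝ := if red p ∈ patA then eps * ((p.2 - 2) / 4 : ℤ) else 0

/-- The sheared tiling set. -/
noncomputable def A₀ : Set Pt := {c | red c.1 ∈ patA ++ patB ∧ ∃ m : ℤ, c.2 = height c.1 + m}

lemma height_la {p : Z2} (hp : red p ∈ patA) : height (p + la) = height p + eps := by
  have hp' : red (p + la) ∈ patA := by rw [red_add]; exact (pat_step _).1.mpr hp
  have e : ((p + la).2 - 2) / 4 = (p.2 - 2) / 4 + 1 := by simp [la]; omega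
  rw [height, height, if_pos hp, if_pos hp', e]
  push_cast; ring

lemma height_ll (p : Z2) : height (p + ll) = height p := by
  have e : red (p + ll) = red p := by rw [red_add, show red ll = 0 by decide, add_zero]
  have e2 : (p + ll).2 = p.2 := add_zero _
  rw [height, height, e, e2]

lemma height_lb {p : Z2} (hp : red p ∈ patB) : height (p + lb) = 0 ∧ height p = 0 := by
  have hp' : red (p + lb) ∈ patB := by rw [red_add]; exact (pat_step _).2.1.mpr hp
  exact ⟨if_neg fun hh => (pat_step _).2.2 ⟨hh, hp'⟩, if_neg fun hh => (pat_step _).2.2 ⟨hh, hp⟩⟩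

lemma proj_A₀ : proj A₀ = {p | red p ∈ patA ++ patB} := by
  ext p
  exact ⟨fun ⟨z, hz⟩ => hz.1, fun hp => ⟨height p, hp, 0, by simp⟩⟩

lemma shear_A₀ : Shear A₀ where
  unit := by
    rintro ⟨p, z⟩
    simp only [A₀, Set.mem_setOf_eq, Prod.mk_add_mk, add_zero]
    refine and_congr_right fun _ => ⟨fun ⟨m, hm⟩ => ⟨m - 1, ?_⟩, fun ⟨m, hm⟩ => ⟨m + 1, ?_⟩⟩ <;>
      (push_cast; linarith)
  column := by
    rintro p z z' ⟨-, m, hm⟩ ⟨-, m', hm'⟩
    refine ⟨m' - m, ?_⟩
    dsimp only at hm hm'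
    push_cast; linarith
  rigid := by
    rintro ⟨p, z⟩
    have e : red (p + ll) = red p := by rw [red_add, show red ll = 0 by decide, add_zero]
    simp [A₀, pl, e, height_ll]
  pred := by
    rintro ⟨p, z⟩ ⟨hp, m, hm⟩
    dsimp only at hp hm
    rcases List.mem_append.mp hp with ha | hb
    · refine Or.inl ⟨?_, ?_⟩
      · have hq : red (p - la) ∈ patA := by
          rw [← (pat_step (red (p - la))).1, ← red_add, sub_add_cancel]; exact ha
        refine ⟨List.mem_append_left _ hq, m, ?_⟩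
        have := height_la hq
        rw [sub_add_cancel] at this
        show z - eps = height (p - la) + m
        linarith
      · rintro ⟨hq, -⟩
        exact (pat_crossA _ ha).2 (by simpa [pb] using hq)
    · refine Or.inr ⟨?_, ?_⟩
      · have hq : red (p - lb) ∈ patB := by
          rw [← (pat_step (red (p - lb))).2.1, ← red_add, sub_add_cancel]; exact hb
        refine ⟨List.mem_append_right _ hq, m, ?_⟩
        have := height_lb hq
        rw [sub_add_cancel] at this
        show z - 0 = height (p - lb) + m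
        linarith
      · rintro ⟨hq, -⟩
        exact (pat_crossB _ hb).2 (by simpa [pa] using hq)
  succ := by
    rintro ⟨p, z⟩ ⟨hp, m, hm⟩
    dsimp only at hp hm
    rcases List.mem_append.mp hp with ha | hb
    · refine Or.inl ⟨⟨List.mem_append_left _ ?_, m, ?_⟩, ?_⟩
      · simpa [pa] using (pat_step _).1.mpr ha
      · show z + eps = height (p + la) + m
        rw [height_la ha]; linarith
      · rintro ⟨hq, -⟩
        exact (pat_crossA _ ha).1 (by simpa [pb] using hq)
    · refine Or.inr ⟨⟨List.mem_append_right _ ?_, m, ?_⟩, ?_⟩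
      · simpa [pb] using (pat_step _).2.1.mpr hb
      · show z + 0 = height (p + lb) + m
        obtain ⟨e1, e2⟩ := height_lb hb
        linarith
      · rintro ⟨hq, -⟩
        exact (pat_crossB _ hb).1 (by simpa [pa] using hq)
  apart := by
    rintro ⟨p, z⟩ ⟨hp, -⟩ ⟨hq, -⟩
    exact pat_apart _ hp (by simpa [pa, pb, add_assoc] using hq)
  common := by
    rw [proj_A₀]
    intro i y
    obtain ⟨f, hf⟩ := List.length_eq_one_iff.mp (pat_tiles i (red y))
    have key : ∀ g : Z2, g ∈ tile i ∧ y - g ∈ {p | red p ∈ patA ++ patB} ↔ g = f := by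
      intro g
      rw [← List.mem_singleton, ← hf, List.mem_filter]
      simp [tile]
    exact ⟨f, (key f).mpr rfl, fun g hg => (key g).mp hg⟩

end Vale.Agent.P043.Shear
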