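/-
P043 (helper18): the three-dimensional tile of the irrational shear.

Forty-eight unit cells over the fine lattice `ℤ²`, minus small holes, plus equal pegs.  Prism
slots (full height) glue horizontally, cubes force periods and the switching square.
-/
import Vale.Agent.P043.Shear.Comb
import Vale.Agent.P043.Euclid

namespace Vale.Agent.P043.Shear

open Vale.Agent.P043 (RTiles Rd)

abbrev R3 := Rd 3

/-- The fine cell of class `i` over a coarse position. -/
def fine (i : Fin 3) (p : Z2) : Z2 := (3 * p.1 + (i : ℕ), p.2)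

def cells : List Z2 := (List.finRange 3).flatMap fun i => (tileList i).map (fine i)

/-- Cells of class `i`. -/
def classCells (i : Fin 3) : List Z2 := cells.filter fun k => k.1 % 3 = ((i : ℕ) : ℤ)

/-- The kinds of holes, by increasing size. -/
inductive Kind
  | sw | up | down | left | right
  | xs (i : Fin 3)
  | ys (i : Fin 3)
  deriving DecidableEq

namespace Kind

def rank : Kind → Fin 11
  | sw => 0
  | up => 1
  | down => 2
  | left => 3
  | right => 4
  | xs i => ⟨5 + i, by omega⟩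
  | ys i => ⟨8 + i, by omega⟩

/-- Prisms have full height. -/
def prism : Kind → Bool
  | xs _ => true
  | ys _ => true
  | _ => false

def all : List Kind := [sw, up, down, left, right, xs 0, xs 1, xs 2, ys 0, ys 1, ys 2]

lemma mem_all : ∀ j, j ∈ all := by
  intro j
  rcases j with _ | _ | _ | _ | _ | i | i <;> first | decide | (fin_cases i <;> decide)

lemma rank_injective : Function.Injective rank := by
  intro a b h
  have key : ∀ a ∈ all, ∀ b ∈ all, rank a = rank b → a = b := by decide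
  exact key a (mem_all a) b (mem_all b) h

end Kind

/-- A piece is a cell with a vertical offset `m + e ε`, recorded as `(m, e)`. -/
abbrev Piece := Z2 × ℤ × ℤ

noncomputable def dz (q : Piece) : ℝ := q.2.1 + q.2.2 * eps

def k0 : Z2 := (1, 0)

def holes : Kind → List Piece
  | .sw => [((0, 5), 0, 0), ((24, 13), 0, 1)]
  | .up => [(k0, 0, 0)]
  | .down => [(k0, 0, 0)]
  | .left => [(k0, 0, 0)]
  | .right => [(k0, 0, 0)]
  | .xs i => (classCells (i + 1)).map fun k => (k, 0, 0)
  | .ys i => (classCells i).map fun k => (k, 0, 0)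

def pegs : Kind → List Piece
  | .sw => [((0, 9), 0, 1), ((24, 9), 0, 0)]
  | .up => [(k0, 1, 0)]
  | .down => [(k0, -1, 0)]
  | .left => [(k0 + (48, 0), 0, 0)]
  | .right => [(k0 - (48, 0), 0, 0)]
  | .xs i => (classCells i).map fun k => (k + (1, 0), 0, 0)
  | .ys i => (classCells i).map fun k => (k + (0, 1), 0, 0)

/-- Side length. -/
noncomputable def wid (j : Kind) : ℝ := (1 / 64) ^ (11 - (j.rank : ℕ))

/-- Lowest point, relative to the cell. -/
noncomputable def zlow (j : Kind) : ℝ := if j.prism then 0 else 1 / 4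

noncomputable def tall (j : Kind) : ℝ := if j.prism then 1 else wid j

noncomputable def xlow (j : Kind) : ℝ := 1 / 4 + (j.rank : ℕ) / 24

noncomputable def pieceCorner (j : Kind) (q : Piece) : R3 :=
  ![q.1.1 + xlow j, q.1.2 + 1 / 4, zlow j + dz q]

noncomputable def pieceBox (j : Kind) (q : Piece) : Set R3 :=
  box (pieceCorner j q) ![wid j, wid j, tall j]

def cellBox (k : Z2) : Set R3 := box ![(k.1 : ℝ), k.2, 0] fun _ => 1

def holeAll : Set R3 := {x | ∃ j, ∃ q ∈ holes j, x ∈ pieceBox j q}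

def pegAll : Set R3 := {x | ∃ j, ∃ q ∈ pegs j, x ∈ pieceBox j q}

def body : Set R3 := {x | ∃ k ∈ cells, x ∈ cellBox k} \ holeAll

/-- The tile. -/
def Omega : Set R3 := body ∪ pegAll

/-- The fine horizontal position of a translation. -/
def hpos (c : Pt) : Z2 := (3 * c.1.1, c.1.2)

/-- A translation as a vector of `ℝ³`. -/
def emb (c : Pt) : R3 := ![(hpos c).1, (hpos c).2, c.2]

lemma wid_pos (j : Kind) : 0 < wid j := by unfold wid; positivity

lemma tall_pos (j : Kind) : 0 < tall j := by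
  unfold tall; split
  · norm_num
  · exact wid_pos j

lemma wid_le (j : Kind) : wid j ≤ 1 / 64 := by
  unfold wid
  calc (1 / 64 : ℝ) ^ (11 - (j.rank : ℕ)) ≤ (1 / 64) ^ 1 :=
        pow_le_pow_of_le_one (by norm_num) (by norm_num) (by omega)
    _ = 1 / 64 := pow_one _

lemma wid_step {i j : Kind} (h : j.rank < i.rank) : 64 * wid j ≤ wid i := by
  have h' : (j.rank : ℕ) < (i.rank : ℕ) := h
  unfold wid
  rw [show 11 - (j.rank : ℕ) = (11 - (j.rank : ℕ) - 1) + 1 by omega, pow_succ]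
  have := pow_le_pow_of_le_one (by norm_num : (0 : ℝ) ≤ 1 / 64) (by norm_num)
    (show 11 - (i.rank : ℕ) ≤ 11 - (j.rank : ℕ) - 1 by omega)
  linarith

lemma xlow_mem (j : Kind) : 1 / 4 ≤ xlow j ∧ xlow j + wid j < 3 / 4 := by
  have h1 : ((j.rank : ℕ) : ℝ) ≤ 10 := by
    have : (j.rank : ℕ) ≤ 10 := by omega
    exact_mod_cast this
  have := wid_le j
  have : (0 : ℝ) ≤ (j.rank : ℕ) := Nat.cast_nonneg _
  unfold xlow
  constructor <;> linarith

lemma xlow_gap {i j : Kind} (h : j.rank < i.rank) : xlow j + wid j + 1 / 64 ≤ xlow i := by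
  have h' : ((j.rank : ℕ) : ℝ) + 1 ≤ (i.rank : ℕ) := by exact_mod_cast h
  have := wid_le j
  unfold xlow; linarith

lemma holes_cells : ∀ j, ∀ q ∈ holes j, q.1 ∈ cells ∧ q.2.1 = 0 ∧ (q.2.2 = 0 ∨ q.2.2 = 1) ∧
    (j.prism = true → q.2.2 = 0) := by
  have key : ∀ j ∈ Kind.all, ∀ q ∈ holes j, q.1 ∈ cells ∧ q.2.1 = 0 ∧ (q.2.2 = 0 ∨ q.2.2 = 1) ∧
    (j.prism = true → q.2.2 = 0) := by decide +kernel
  exact fun j => key j (Kind.mem_all j)

lemma cells_nodup : cells.Nodup := by decide +kernel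

lemma holes_fun : ∀ j, ∀ q ∈ holes j, ∀ q' ∈ holes j, q.1 = q'.1 → q = q' := by
  have key : ∀ j ∈ Kind.all, ∀ q ∈ holes j, ∀ q' ∈ holes j, q.1 = q'.1 → q = q' := by
    decide +kernel
  exact fun j => key j (Kind.mem_all j)

/-- A peg never sits on the body: outside the cells, in a hole, or above or below. -/
lemma pegs_off : ∀ j, ∀ q ∈ pegs j,
    q.1 ∉ cells ∨ q ∈ holes j ∨ (j.prism = false ∧ q.2.2 = 0 ∧ (q.2.1 = 1 ∨ q.2.1 = -1)) := by
  have key : ∀ j ∈ Kind.all, ∀ q ∈ pegs j,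
    q.1 ∉ cells ∨ q ∈ holes j ∨ (j.prism = false ∧ q.2.2 = 0 ∧ (q.2.1 = 1 ∨ q.2.1 = -1)) := by
    decide +kernel
  exact fun j => key j (Kind.mem_all j)

lemma prism_pieces : ∀ j, j.prism = true → ∀ q ∈ pegs j, q.2 = (0, 0) := by
  have key : ∀ j ∈ Kind.all, j.prism = true → ∀ q ∈ pegs j, q.2 = (0, 0) := by decide +kernel
  exact fun j => key j (Kind.mem_all j)

lemma mem_pieceBox {j : Kind} {q : Piece} {x : R3} :
    x ∈ pieceBox j q ↔ (q.1.1 + xlow j ≤ x 0 ∧ x 0 < q.1.1 + xlow j + wid j) ∧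
      (q.1.2 + 1 / 4 ≤ x 1 ∧ x 1 < q.1.2 + 1 / 4 + wid j) ∧
      (zlow j + dz q ≤ x 2 ∧ x 2 < zlow j + dz q + tall j) := by
  simp [pieceBox, pieceCorner, mem_box, Fin.forall_fin_succ]

lemma mem_cellBox {k : Z2} {x : R3} :
    x ∈ cellBox k ↔ ((k.1 : ℝ) ≤ x 0 ∧ x 0 < k.1 + 1) ∧ ((k.2 : ℝ) ≤ x 1 ∧ x 1 < k.2 + 1) ∧
      (0 ≤ x 2 ∧ x 2 < 1) := by
  simp [cellBox, mem_box, Fin.forall_fin_succ]

lemma omega_measurable : MeasurableSet Omega := by
  have piece : ∀ j q, MeasurableSet (pieceBox j q) := fun j q => box_measurable _ _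
  have hol : MeasurableSet holeAll := by
    have e : holeAll = ⋃ jq ∈ {jq : Kind × Piece | jq.1 ∈ Kind.all ∧ jq.2 ∈ holes jq.1},
        pieceBox jq.1 jq.2 := by
      ext x; simp [holeAll, Kind.mem_all]
    rw [e]
    refine MeasurableSet.biUnion (Set.Countable.mono ?_
      ((List.finite_toSet Kind.all).prod (List.finite_toSet (Kind.all.flatMap holes))).countable)
      fun _ _ => piece _ _
    exact fun jq h => Set.mem_prod.mpr ⟨h.1, List.mem_flatMap.mpr ⟨jq.1, h.1, h.2⟩⟩
  have peg : MeasurableSet pegAll := by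
    have e : pegAll = ⋃ jq ∈ {jq : Kind × Piece | jq.1 ∈ Kind.all ∧ jq.2 ∈ pegs jq.1},
        pieceBox jq.1 jq.2 := by
      ext x; simp [pegAll, Kind.mem_all]
    rw [e]
    refine MeasurableSet.biUnion (Set.Countable.mono ?_
      ((List.finite_toSet Kind.all).prod (List.finite_toSet (Kind.all.flatMap pegs))).countable)
      fun _ _ => piece _ _
    exact fun jq h => Set.mem_prod.mpr ⟨h.1, List.mem_flatMap.mpr ⟨jq.1, h.1, h.2⟩⟩
  have cel : MeasurableSet {x : R3 | ∃ k ∈ cells, x ∈ cellBox k} := by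
    have e : {x : R3 | ∃ k ∈ cells, x ∈ cellBox k} = ⋃ k ∈ {k | k ∈ cells}, cellBox k := by
      ext x; simp
    rw [e]
    exact MeasurableSet.biUnion (List.finite_toSet cells).countable fun _ _ => box_measurable _ _
  exact (cel.diff hol).union peg

end Vale.Agent.P043.Shear
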