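/-
P043 (helper18): a sheared point set tiles `ℝ³` by the tile, pointwise exactly.
-/
import Vale.Agent.P043.Shear.Geom

namespace Vale.Agent.P043.Shear

open Vale.Agent.P043 (RTiles Rd)

/-- The horizontal section of the pieces of kind `j` contains the point. -/
def InBump (j : Kind) (x : R3) : Prop :=
  (xlow j ≤ x 0 - ⌊x 0⌋ ∧ x 0 - ⌊x 0⌋ < xlow j + wid j) ∧
    (1 / 4 ≤ x 1 - ⌊x 1⌋ ∧ x 1 - ⌊x 1⌋ < 1 / 4 + wid j)

noncomputable def xcell (x : R3) : Z2 := (⌊x 0⌋, ⌊x 1⌋)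

lemma inBump_unique {i j : Kind} {x : R3} (hi : InBump i x) (hj : InBump j x) : i = j := by
  by_contra hne
  rcases lt_or_gt_of_ne (Kind.rank_injective.ne hne) with h | h
  · have := xlow_gap h; linarith [hi.1.2, hj.1.1]
  · have := xlow_gap h; linarith [hj.1.2, hi.1.1]

/-- The piece `q` of kind `j` of the translate `c` meets the point over `k` at height `z`. -/
def Cond (j : Kind) (q : Piece) (c : Pt) (k : Z2) (z : ℝ) : Prop :=
  k = hpos c + q.1 ∧ zlow j + dz q ≤ z - c.2 ∧ z - c.2 < zlow j + dz q + tall j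

/-- The translate `c` owns the point over `k` at height `z`. -/
def Owns (c : Pt) (k : Z2) (z : ℝ) : Prop :=
  (∃ f ∈ cells, k = hpos c + f) ∧ 0 ≤ z - c.2 ∧ z - c.2 < 1

lemma sub_emb (x : R3) (c : Pt) :
    (x - emb c) 0 = x 0 - (hpos c).1 ∧ (x - emb c) 1 = x 1 - (hpos c).2 ∧
      (x - emb c) 2 = x 2 - c.2 := by
  simp [emb]

lemma mem_piece_iff {j : Kind} {q : Piece} {c : Pt} {x : R3} :
    x - emb c ∈ pieceBox j q ↔ InBump j x ∧ Cond j q c (xcell x) (x 2) := by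
  obtain ⟨e0, e1, e2⟩ := sub_emb x c
  rw [mem_pieceBox, e0, e1, e2]
  have hx := xlow_mem j
  have hw := wid_le j
  constructor
  · rintro ⟨⟨a0, b0⟩, ⟨a1, b1⟩, hz⟩
    have f0 : ⌊x 0⌋ = (hpos c).1 + q.1.1 :=
      Int.floor_eq_iff.mpr (by push_cast; constructor <;> linarith)
    have f1 : ⌊x 1⌋ = (hpos c).2 + q.1.2 :=
      Int.floor_eq_iff.mpr (by push_cast; constructor <;> linarith)
    refine ⟨⟨?_, ?_⟩, Prod.ext f0 f1, hz⟩
    · rw [f0]; push_cast; constructor <;> linarith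
    · rw [f1]; push_cast; constructor <;> linarith
  · rintro ⟨⟨⟨a0, b0⟩, ⟨a1, b1⟩⟩, hk, hz⟩
    simp only [xcell, Prod.ext_iff, Prod.fst_add, Prod.snd_add] at hk
    rw [hk.1] at a0 b0
    rw [hk.2] at a1 b1
    push_cast at a0 b0 a1 b1
    refine ⟨⟨?_, ?_⟩, ⟨?_, ?_⟩, hz⟩ <;> linarith

lemma mem_cells_iff {c : Pt} {x : R3} :
    (x - emb c ∈ {y : R3 | ∃ f ∈ cells, y ∈ cellBox f}) ↔ Owns c (xcell x) (x 2) := by
  obtain ⟨e0, e1, e2⟩ := sub_emb x c
  show (∃ f ∈ cells, x - emb c ∈ cellBox f) ↔ _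
  simp only [mem_cellBox, e0, e1, e2]
  constructor
  · rintro ⟨f, hf, ⟨a0, b0⟩, ⟨a1, b1⟩, hz⟩
    refine ⟨⟨f, hf, Prod.ext ?_ ?_⟩, hz⟩ <;>
      simp only [xcell, Prod.fst_add, Prod.snd_add] <;>
      exact Int.floor_eq_iff.mpr (by push_cast; constructor <;> linarith)
  · rintro ⟨⟨f, hf, hk⟩, hz⟩
    simp only [xcell, Prod.ext_iff, Prod.fst_add, Prod.snd_add] at hk
    have a0 := Int.floor_le (x 0)
    have b0 := Int.lt_floor_add_one (x 0)
    have a1 := Int.floor_le (x 1)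
    have b1 := Int.lt_floor_add_one (x 1)
    rw [hk.1] at a0 b0
    rw [hk.2] at a1 b1
    push_cast at a0 b0 a1 b1
    refine ⟨f, hf, ⟨?_, ?_⟩, ⟨?_, ?_⟩, hz⟩ <;> linarith

lemma mem_cells {f : Z2} : f ∈ cells ↔ ∃ i : Fin 3, ∃ p ∈ tileList i, fine i p = f := by
  simp [cells]

lemma hole_owns {j : Kind} {q : Piece} {c : Pt} {k : Z2} {z : ℝ} (hq : q ∈ holes j)
    (h : Cond j q c k z) : Owns c k z := by
  obtain ⟨hc, hm, he, hp⟩ := holes_cells j q hq
  obtain ⟨hk, h1, h2⟩ := h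
  refine ⟨⟨q.1, hc, hk⟩, ?_⟩
  have := eps_pos
  have := eps_lt
  have := wid_le j
  have := wid_pos j
  cases hj : j.prism
  · simp only [zlow, tall, hj, Bool.false_eq_true, if_false, dz, hm] at h1 h2
    rcases he with he | he <;> rw [he] at h1 h2 <;> push_cast at h1 h2 <;>
      constructor <;> linarith
  · simp only [zlow, tall, hj, if_true, dz, hm, hp hj] at h1 h2
    push_cast at h1 h2
    constructor <;> linarith

variable {S : Set Pt} (h : Shear S)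
include h

lemma exists_owner (k : Z2) (z : ℝ) : ∃! c, c ∈ S ∧ Owns c k z := by
  obtain ⟨i, y, rfl⟩ : ∃ (i : Fin 3) (y : Z2), fine i y = k :=
    ⟨⟨(k.1 % 3).toNat, by omega⟩, (k.1 / 3, k.2), Prod.ext (by simp [fine]; omega) rfl⟩
  obtain ⟨f, ⟨hf, z0, hz0⟩, hu⟩ := h.common i y
  have shift : ∀ n : ℤ, ((y - f, z0 + n) : Pt) ∈ S := by
    intro n
    induction n using Int.induction_on with
    | zero => simpa using hz0
    | succ m ih =>
      have := (h.unit _).mpr ih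
      simpa [add_assoc] using this
    | pred m ih =>
      rw [← h.unit]
      simpa [add_assoc, sub_add_cancel] using ih
  refine ⟨(y - f, z0 + (⌊z - z0⌋ : ℤ)), ⟨shift _, ⟨fine i f, ?_, ?_⟩, ?_⟩, ?_⟩
  · exact mem_cells.mpr ⟨i, f, List.mem_toFinset.mp hf, rfl⟩
  · ext <;> simp [fine, hpos]; ring
  · have := Int.floor_le (z - z0)
    have := Int.lt_floor_add_one (z - z0)
    constructor <;> dsimp only <;> linarith
  · rintro ⟨p, t⟩ ⟨hc, ⟨g, hg, hk⟩, ht1, ht2⟩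
    dsimp only at ht1 ht2
    obtain ⟨i', g', hg', rfl⟩ := mem_cells.mp hg
    simp only [fine, hpos, Prod.ext_iff, Prod.fst_add, Prod.snd_add] at hk
    have hi : i' = i := Fin.ext (by omega)
    subst hi
    have hp : y - g' = p := Prod.ext (by simp; omega) (by simp; omega)
    have hgf : g' = f := hu g' ⟨List.mem_toFinset.mpr hg', t, by rw [hp]; exact hc⟩
    subst hgf
    subst hp
    obtain ⟨n, hn⟩ := h.column _ _ _ hz0 hc
    have : ⌊z - z0⌋ = n := Int.floor_eq_iff.mpr (by constructor <;> linarith)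
    rw [this, hn]

omit h

/-- Two pieces at the same place. -/
def Link (c : Pt) (q : Piece) (d : Pt) (q' : Piece) : Prop :=
  hpos c + q.1 = hpos d + q'.1 ∧ c.2 + dz q = d.2 + dz q'

lemma link_cond {j : Kind} {c d : Pt} {q q' : Piece} {k : Z2} {z : ℝ} (hl : Link c q d q') :
    Cond j q c k z ↔ Cond j q' d k z := by
  obtain ⟨h1, h2⟩ := hl
  unfold Cond
  rw [h1]
  constructor <;> rintro ⟨hk, a, b⟩ <;> exact ⟨hk, by linarith, by linarith⟩

lemma link_eq {c d w : Pt} {q q' : Piece} (hl : Link c q d q') (hh : hpos w = q'.1 - q.1)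
    (hv : w.2 = dz q' - dz q) : c = d + w := by
  obtain ⟨h1, h2⟩ := hl
  simp only [hpos, Prod.ext_iff, Prod.fst_add, Prod.snd_add, Prod.fst_sub, Prod.snd_sub] at h1 hh
  refine Prod.ext (Prod.ext ?_ ?_) ?_ <;> simp only [Prod.fst_add, Prod.snd_add]
  · omega
  · omega
  · linarith

lemma eq_link {c d w : Pt} {q q' : Piece} (e : c = d + w) (hh : hpos w = q'.1 - q.1)
    (hv : w.2 = dz q' - dz q) : Link c q d q' := by
  subst e
  simp only [hpos, Prod.ext_iff, Prod.fst_sub, Prod.snd_sub] at hh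
  refine ⟨Prod.ext ?_ ?_, ?_⟩ <;> simp only [hpos, Prod.fst_add, Prod.snd_add]
  · omega
  · omega
  · linarith

include h

omit h in
lemma single_swap {w : Pt} (hw : w ∈ stab S) {j : Kind} {a b : Piece} (hh : holes j = [a])
    (hp : pegs j = [b]) (e1 : hpos w = a.1 - b.1) (e2 : w.2 = dz a - dz b) :
    (∀ c ∈ S, ∀ q ∈ pegs j, ∃ d ∈ S, ∃ q' ∈ holes j, Link c q d q') ∧
    (∀ d ∈ S, ∀ q' ∈ holes j, ∃! c, c ∈ S ∧ ∃ q ∈ pegs j, Link c q d q') := by
  rw [hh, hp]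
  simp only [List.mem_singleton, forall_eq, exists_eq_left]
  refine ⟨fun c hc => ⟨c - w, ?_, eq_link (sub_add_cancel c w).symm e1 e2⟩, fun d hd => ?_⟩
  · rw [← hw (c - w), sub_add_cancel]; exact hc
  · refine ⟨d + w, ⟨(hw d).mpr hd, eq_link rfl e1 e2⟩, ?_⟩
    rintro c ⟨-, hl⟩
    exact link_eq hl e1 e2

lemma cube_swap (j : Kind) (hj : j.prism = false) :
    (∀ c ∈ S, ∀ q ∈ pegs j, ∃ d ∈ S, ∃ q' ∈ holes j, Link c q d q') ∧
    (∀ d ∈ S, ∀ q' ∈ holes j, ∃! c, c ∈ S ∧ ∃ q ∈ pegs j, Link c q d q') := by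
  have unit : ((0 : Z2), (1 : ℝ)) ∈ stab S := h.unit
  have rig : pl ∈ stab S := h.rigid
  match j, hj with
  | .up, _ =>
    exact single_swap (neg_mem unit) rfl rfl (by simp [hpos, k0]) (by simp [dz])
  | .down, _ => exact single_swap unit rfl rfl (by simp [hpos, k0]) (by simp [dz])
  | .left, _ =>
    exact single_swap (neg_mem rig) rfl rfl (by simp [hpos, pl, ll, k0]) (by simp [dz, pl])
  | .right, _ =>
    exact single_swap rig rfl rfl (by simp [hpos, pl, ll, k0]) (by simp [dz, pl])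
  | .xs _, hj | .ys _, hj => simp [Kind.prism] at hj
  | .sw, _ =>
    simp only [pegs, holes, List.mem_cons, List.not_mem_nil, or_false, forall_eq_or_imp, forall_eq,
      exists_eq_or_imp, exists_eq_left]
    have l00 : ∀ c, Link c ((0, 9), 0, 1) (c + pa) ((0, 5), 0, 0) := fun c =>
      eq_link (w := -pa) (add_neg_cancel_right c pa).symm (by simp [hpos, pa, la])
        (by simp [dz, pa])
    have l01 : ∀ c, Link c ((0, 9), 0, 1) (c - pb) ((24, 13), 0, 1) := fun c =>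
      eq_link (w := pb) (sub_add_cancel c pb).symm (by simp [hpos, pb, lb]) (by simp [dz, pb])
    have l10 : ∀ c, Link c ((24, 9), 0, 0) (c + pb) ((0, 5), 0, 0) := fun c =>
      eq_link (w := -pb) (add_neg_cancel_right c pb).symm (by simp [hpos, pb, lb])
        (by simp [dz, pb])
    have l11 : ∀ c, Link c ((24, 9), 0, 0) (c - pa) ((24, 13), 0, 1) := fun c =>
      eq_link (w := pa) (sub_add_cancel c pa).symm (by simp [hpos, pa, la]) (by simp [dz, pa])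
    refine ⟨fun c hc => ⟨?_, ?_⟩, fun d hd => ⟨?_, ?_⟩⟩
    · rcases h.succ c hc with ⟨m, -⟩ | ⟨m, -⟩
      · exact ⟨_, m, Or.inl (l00 c)⟩
      · refine ⟨c - pb, ((pb_stab h (c - pb)).mp ?_).1, Or.inr (l01 c)⟩
        rw [sub_add_cancel]; exact ⟨hc, m⟩
    · rcases h.succ c hc with ⟨m, -⟩ | ⟨m, -⟩
      · refine ⟨c - pa, ((pa_stab h (c - pa)).mp ?_).1, Or.inr (l11 c)⟩
        rw [sub_add_cancel]; exact ⟨hc, m⟩
      · exact ⟨_, m, Or.inl (l10 c)⟩
    · have ea : ∀ c, Link c ((0, 9), 0, 1) d ((0, 5), 0, 0) → c = d - pa := fun c hl =>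
        (link_eq (w := -pa) hl (by simp [hpos, pa, la]) (by simp [dz, pa])).trans
          (sub_eq_add_neg d pa).symm
      have eb : ∀ c, Link c ((24, 9), 0, 0) d ((0, 5), 0, 0) → c = d - pb := fun c hl =>
        (link_eq (w := -pb) hl (by simp [hpos, pb, lb]) (by simp [dz, pb])).trans
          (sub_eq_add_neg d pb).symm
      rcases h.pred d hd with ⟨m, nm⟩ | ⟨m, nm⟩
      · refine ⟨d - pa, ⟨m, Or.inl (by simpa using l00 (d - pa))⟩, ?_⟩
        rintro c ⟨hc, hl | hl⟩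
        · exact ea c hl
        · exact absurd (eb c hl ▸ hc) nm
      · refine ⟨d - pb, ⟨m, Or.inr (by simpa using l10 (d - pb))⟩, ?_⟩
        rintro c ⟨hc, hl | hl⟩
        · exact absurd (ea c hl ▸ hc) nm
        · exact eb c hl
    · have ea : ∀ c, Link c ((0, 9), 0, 1) d ((24, 13), 0, 1) → c = d + pb := fun c hl =>
        link_eq hl (by simp [hpos, pb, lb]) (by simp [dz, pb])
      have eb : ∀ c, Link c ((24, 9), 0, 0) d ((24, 13), 0, 1) → c = d + pa := fun c hl =>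
        link_eq hl (by simp [hpos, pa, la]) (by simp [dz, pa])
      rcases h.succ d hd with ⟨m, nm⟩ | ⟨m, nm⟩
      · refine ⟨d + pa, ⟨m, Or.inr (by simpa using l11 (d + pa))⟩, ?_⟩
        rintro c ⟨hc, hl | hl⟩
        · exact absurd (ea c hl ▸ hc) nm
        · exact eb c hl
      · refine ⟨d + pb, ⟨m, Or.inl (by simpa using l01 (d + pb))⟩, ?_⟩
        rintro c ⟨hc, hl | hl⟩
        · exact ea c hl
        · exact absurd (eb c hl ▸ hc) nm

omit h

lemma prism_form {j : Kind} (hj : j.prism = true) :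
    ∃ (t u : Fin 3) (s : Z2), (s.1 + (t : ℕ)) % 3 = ((u : ℕ) : ℤ) ∧
      holes j = (classCells u).map (fun k => (k, 0, 0)) ∧
      pegs j = (classCells t).map (fun k => (k + s, 0, 0)) := by
  rcases j with _ | _ | _ | _ | _ | i | i <;> simp [Kind.prism] at hj
  · refine ⟨i, i + 1, (1, 0), ?_, rfl, rfl⟩
    fin_cases i <;> simp
  · refine ⟨i, i, (0, 1), ?_, rfl, rfl⟩
    fin_cases i <;> simp

lemma prism_cond {j : Kind} (hj : j.prism = true) (k : Z2) {c : Pt} {p : Z2} {z : ℝ} :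
    Cond j (p, 0, 0) c k z ↔ k = hpos c + p ∧ 0 ≤ z - c.2 ∧ z - c.2 < 1 := by
  simp [Cond, zlow, tall, hj, dz]

include h

/-- The pegs over a point are matched with the hole over it. -/
lemma match_at (j : Kind) (k : Z2) (z : ℝ) :
    (∀ c ∈ S, ∀ q ∈ pegs j, Cond j q c k z → ∃ d ∈ S, ∃ q' ∈ holes j, Cond j q' d k z) ∧
    (∀ d ∈ S, ∀ q' ∈ holes j, Cond j q' d k z →
      ∃! c, c ∈ S ∧ ∃ q ∈ pegs j, Cond j q c k z) := by
  cases hj : j.prism
  · obtain ⟨hA, hB⟩ := cube_swap h j hj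
    refine ⟨fun c hc q hq hcond => ?_, fun d hd q' hq' hcond => ?_⟩
    · obtain ⟨d, hd, q', hq', hl⟩ := hA c hc q hq
      exact ⟨d, hd, q', hq', (link_cond hl).mp hcond⟩
    · obtain ⟨c, ⟨hc, q, hq, hl⟩, hu⟩ := hB d hd q' hq'
      refine ⟨c, ⟨hc, q, hq, (link_cond hl).mpr hcond⟩, ?_⟩
      rintro c2 ⟨hc2, q2, hq2, hcond2⟩
      obtain ⟨d2, hd2, q2', hq2', hl2⟩ := hA c2 hc2 q2 hq2
      have hh := (link_cond hl2).mp hcond2
      obtain rfl : d2 = d := (exists_owner h k z).unique ⟨hd2, hole_owns hq2' hh⟩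
        ⟨hd, hole_owns hq' hcond⟩
      obtain rfl : q2' = q' := holes_fun j _ hq2' _ hq'
        (add_left_cancel (hh.1.symm.trans hcond.1))
      exact hu c2 ⟨hc2, q2, hq2, hl2⟩
  · obtain ⟨t, u, s, hs, ehole, epeg⟩ := prism_form hj
    simp only [ehole, epeg, List.forall_mem_map]
    simp only [List.mem_map, exists_exists_and_eq_and, prism_cond hj, classCells, List.mem_filter, decide_eq_true_eq]
    refine ⟨fun c hc f ⟨hf, hcl⟩ ⟨hk, hz⟩ => ?_, fun d hd g ⟨hg, hcl⟩ ⟨hk, hz⟩ => ?_⟩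
    · obtain ⟨d, ⟨hd, ⟨g, hg, hk'⟩, hz'⟩, -⟩ := exists_owner h k z
      refine ⟨d, hd, g, ⟨hg, ?_⟩, hk', hz'⟩
      have e := congrArg Prod.fst (hk'.symm.trans hk)
      simp only [hpos, Prod.fst_add] at e
      omega
    · obtain ⟨c, ⟨hc, ⟨f, hf, hk'⟩, hz'⟩, hu⟩ := exists_owner h (k - s) z
      refine ⟨c, ⟨hc, f, ⟨hf, ?_⟩, ?_, hz'⟩, ?_⟩
      · have e := congrArg Prod.fst hk'
        have e2 := congrArg Prod.fst hk
        simp only [hpos, Prod.fst_add, Prod.fst_sub] at e e2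
        omega
      · rw [← add_assoc, ← hk', sub_add_cancel]
      · rintro c2 ⟨hc2, f2, ⟨hf2, -⟩, hk2, hz2⟩
        exact hu c2 ⟨hc2, ⟨f2, hf2, by rw [hk2, ← add_assoc, add_sub_cancel_right]⟩, hz2⟩

/-- Every point is covered exactly once. -/
lemma exact_cover (x : R3) : ∃! c, c ∈ S ∧ x - emb c ∈ Omega := by
  obtain ⟨c0, ⟨hc0, ho0⟩, hu⟩ := exists_owner h (xcell x) (x 2)
  by_cases hh : ∃ j, InBump j x ∧ ∃ q ∈ holes j, Cond j q c0 (xcell x) (x 2)
  · obtain ⟨j, hj, q, hq, hcond⟩ := hh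
    obtain ⟨c, ⟨hc, p, hp, hpc⟩, hcu⟩ := (match_at h j _ _).2 c0 hc0 q hq hcond
    refine ⟨c, ⟨hc, Or.inr ⟨j, p, hp, mem_piece_iff.mpr ⟨hj, hpc⟩⟩⟩, ?_⟩
    rintro c2 ⟨hc2, ⟨hcell, hnh⟩ | ⟨j2, p2, hp2, hm⟩⟩
    · obtain rfl := hu c2 ⟨hc2, mem_cells_iff.mp hcell⟩
      exact absurd ⟨j, q, hq, mem_piece_iff.mpr ⟨hj, hcond⟩⟩ hnh
    · obtain ⟨hj2, hc2'⟩ := mem_piece_iff.mp hm
      obtain rfl := inBump_unique hj2 hj
      exact hcu c2 ⟨hc2, p2, hp2, hc2'⟩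
  · refine ⟨c0, ⟨hc0, Or.inl ⟨mem_cells_iff.mpr ho0, ?_⟩⟩, ?_⟩
    · rintro ⟨j, q, hq, hm⟩
      obtain ⟨hj, hcond⟩ := mem_piece_iff.mp hm
      exact hh ⟨j, hj, q, hq, hcond⟩
    · rintro c2 ⟨hc2, ⟨hcell, -⟩ | ⟨j, p, hp, hm⟩⟩
      · exact hu c2 ⟨hc2, mem_cells_iff.mp hcell⟩
      · obtain ⟨hj, hcond⟩ := mem_piece_iff.mp hm
        obtain ⟨d, hd, q', hq', hd'⟩ := (match_at h j _ _).1 c2 hc2 p hp hcond
        obtain rfl := hu d ⟨hd, hole_owns hq' hd'⟩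
        exact absurd ⟨j, hj, q', hq', hd'⟩ hh

/-- A sheared point set gives a tiling of `ℝ³`. -/
theorem tiles_of_shear : RTiles (emb '' S) Omega := by
  refine ⟨?_, ?_⟩
  · convert MeasureTheory.measure_empty (μ := MeasureTheory.volume (α := R3))
    refine Set.eq_empty_iff_forall_notMem.mpr fun x hx => ?_
    obtain ⟨c, ⟨hc, hm⟩, -⟩ := exact_cover h x
    exact hx _ ⟨c, hc, rfl⟩ hm
  · rintro _ ⟨a, ha, rfl⟩ _ ⟨b, hb, rfl⟩ hne
    convert MeasureTheory.measure_empty (μ := MeasureTheory.volume (α := R3))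
    refine Set.eq_empty_iff_forall_notMem.mpr fun x ⟨hxa, hxb⟩ => hne ?_
    rw [(exact_cover h x).unique ⟨ha, hxa⟩ ⟨hb, hxb⟩]

end Vale.Agent.P043.Shear
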