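/-
P043 (helper9): every tiling by the sheared tile is, up to a translation, a sheared point set.
-/
import Vale.Agent.P043.Shear.Geom

namespace Vale.Agent.P043.Shear

open MeasureTheory
open Vale.Agent.P043 (RTiles Rd box mem_box box_pos box_measurable)

set_option linter.dupNamespace false

/-- A box almost inside another box is inside it. -/
lemma box_ae_sub {p w q t : R3} (hw : ∀ k, 0 < w k)
    (h : volume (box p w \ box q t) = 0) (k : Fin 3) :
    q k ≤ p k ∧ p k + w k ≤ q k + t k := by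
  classical
  constructor
  · by_contra hlt
    push Not at hlt
    refine box_pos (p := p) (w := Function.update w k (min (w k) (q k - p k)))
      (fun j => ?_) (measure_mono_null (fun x hx => ?_) h)
    · by_cases e : j = k
      · subst e; simp [hw, sub_pos.mpr hlt]
      · simp [e, hw]
    · have H := mem_box.mp hx
      refine ⟨mem_box.mpr fun j => ?_, fun hh => ?_⟩
      · by_cases e : j = k
        · subst e
          have := H j
          simp only [Function.update_self] at this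
          exact ⟨this.1, by have := min_le_left (w j) (q j - p j); linarith⟩
        · simpa [e] using H j
      · have := H k
        simp only [Function.update_self] at this
        have := min_le_right (w k) (q k - p k)
        have := (mem_box.mp hh k).1
        linarith
  · by_contra hlt
    push Not at hlt
    refine box_pos (p := Function.update p k (max (p k) (q k + t k)))
      (w := Function.update w k (p k + w k - max (p k) (q k + t k)))
      (fun j => ?_) (measure_mono_null (fun x hx => ?_) h)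
    · by_cases e : j = k
      · subst e; simp [hw, hlt]
      · simp [e, hw]
    · have H := mem_box.mp hx
      refine ⟨mem_box.mpr fun j => ?_, fun hh => ?_⟩
      · by_cases e : j = k
        · subst e
          have := H j
          simp only [Function.update_self] at this
          have := le_max_left (p j) (q j + t j)
          constructor <;> linarith
        · simpa [e] using H j
      · have := H k
        simp only [Function.update_self] at this
        have := le_max_right (p k) (q k + t k)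
        have := (mem_box.mp hh k).2
        linarith

/-- A translate of a piece. -/
noncomputable def moved (j : Kind) (a : R3) (q : Piece) : Set R3 :=
  box (a + pieceCorner j q) ![wid j, wid j, tall j]

lemma mem_moved {j : Kind} {a : R3} {q : Piece} {x : R3} :
    x ∈ moved j a q ↔ x - a ∈ pieceBox j q := by
  simp only [moved, pieceBox, mem_box, Pi.add_apply, Pi.sub_apply, le_sub_iff_add_le',
    sub_lt_iff_lt_add', add_assoc]

lemma moved_sides (j : Kind) (k : Fin 3) : 0 < ![wid j, wid j, tall j] k := by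
  fin_cases k <;> simp [wid_pos, tall_pos]

lemma vol_moved (j : Kind) (a : R3) (q : Piece) :
    volume (moved j a q) = ENNReal.ofReal (wid j * wid j * tall j) := by
  rw [moved, box, volume_pi_pi, Fin.prod_univ_three]
  have := wid_pos j
  simp [Real.volume_Ico]
  rw [← ENNReal.ofReal_mul (by positivity), ← ENNReal.ofReal_mul (by positivity)]

lemma dz_holes {j : Kind} {q : Piece} (hq : q ∈ holes j) :
    0 ≤ dz q ∧ dz q ≤ 1 / 8 ∧ (j.prism = true → dz q = 0) := by
  obtain ⟨-, h1, h2, h3⟩ := holes_cells j q hq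
  have := eps_pos
  have := eps_lt
  unfold dz
  rw [h1]
  refine ⟨?_, ?_, fun hp => by simp [h3 hp]⟩ <;> rcases h2 with h2 | h2 <;> rw [h2] <;> simp <;>
    linarith

/-- A hole lies in its cell, away from the sides. -/
lemma hole_mid {j : Kind} {q : Piece} {x : R3} (hq : q ∈ holes j) (hx : x ∈ pieceBox j q) :
    (q.1.1 + 1 / 4 ≤ x 0 ∧ x 0 < q.1.1 + 3 / 4) ∧ (q.1.2 + 1 / 4 ≤ x 1 ∧ x 1 < q.1.2 + 3 / 4) ∧
      (0 ≤ x 2 ∧ x 2 < 1) := by
  obtain ⟨h0, h1, h2⟩ := mem_pieceBox.mp hx
  obtain ⟨d0, d1, d2⟩ := dz_holes hq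
  have := xlow_mem j
  have := wid_le j
  have := wid_pos j
  refine ⟨⟨by linarith, by linarith⟩, ⟨by linarith, by linarith⟩, ?_⟩
  rcases hp : j.prism with _ | _
  · simp [zlow, tall, hp] at h2; constructor <;> linarith
  · simp [zlow, tall, hp, d2 hp] at h2; exact h2

lemma int_eq_of_Ico {m n : ℤ} {x : ℝ} (hm : (m : ℝ) ≤ x ∧ x < m + 1)
    (hn : (n : ℝ) ≤ x ∧ x < n + 1) : m = n := by
  rw [← Int.floor_eq_iff.mpr hm, ← Int.floor_eq_iff.mpr hn]

lemma cell_unique {k l : Z2} {x : R3} (hk : x ∈ cellBox k) (hl : x ∈ cellBox l) : k = l :=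
  Prod.ext (int_eq_of_Ico (mem_cellBox.mp hk).1 (mem_cellBox.mp hl).1)
    (int_eq_of_Ico (mem_cellBox.mp hk).2.1 (mem_cellBox.mp hl).2.1)

lemma hole_cell {j : Kind} {q : Piece} {x : R3} (hq : q ∈ holes j) (hx : x ∈ pieceBox j q) :
    x ∈ cellBox q.1 := by
  obtain ⟨h0, h1, h2⟩ := hole_mid hq hx
  exact mem_cellBox.mpr ⟨⟨by linarith, by linarith⟩, ⟨by linarith, by linarith⟩, h2⟩

/-- Near the sides a cell has no holes. -/
lemma side_mem {k : Z2} {x : R3} (hk : k ∈ cells) (hx : x ∈ cellBox k)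
    (h : x 0 < k.1 + 1 / 4 ∨ k.1 + 3 / 4 ≤ x 0 ∨ x 1 < k.2 + 1 / 4 ∨ k.2 + 3 / 4 ≤ x 1) :
    x ∈ Omega := by
  refine Or.inl ⟨⟨k, hk, hx⟩, ?_⟩
  rintro ⟨j, q, hq, hxq⟩
  obtain rfl := cell_unique hx (hole_cell hq hxq)
  obtain ⟨h0, h1, -⟩ := hole_mid hq hxq
  rcases h with h | h | h | h <;> linarith

/-- Two nearby sections belong to one kind. -/
lemma slot_eq {i j : Kind} {y y' : ℝ} (hi : xlow i ≤ y ∧ y < xlow i + wid i)
    (hj : xlow j ≤ y' ∧ y' < xlow j + wid j) (h : |y - y'| < 1 / 64) : i = j := by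
  rw [abs_lt] at h
  apply Kind.rank_injective
  rcases lt_trichotomy i.rank j.rank with e | e | e
  · have := xlow_gap e; linarith
  · exact e
  · have := xlow_gap e; linarith

/-- The cell a peg steps off from, measured from the peg. -/
def stepVec : Kind → Piece → Z2
  | .xs _, _ => (1, 0)
  | .ys _, _ => (0, 1)
  | _, r => r.1 - k0

lemma origin_cell : ∀ i, ∀ r ∈ pegs i, r.1 - stepVec i r ∈ cells := by
  have key : ∀ i ∈ Kind.all, ∀ r ∈ pegs i, r.1 - stepVec i r ∈ cells := by decide +kernel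
  exact fun i => key i (Kind.mem_all i)

/-- The possible types of the pegs that can meet one hole. -/
def pegTypes : Finset (Kind × Z2 × (ℤ × ℤ) × Bool) :=
  (Kind.all.flatMap fun i => (pegs i).flatMap fun r =>
    [(i, stepVec i r, r.2, true), (i, stepVec i r, r.2, false)]).toFinset

lemma pegTypes_card : pegTypes.card ≤ 44 := by decide +kernel

lemma peg_vol_le {i j : Kind} (h : i.rank < j.rank) :
    wid i * wid i * tall i ≤ wid j * wid j * tall j / 4096 := by
  have hw := wid_step h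
  have := wid_pos i
  have := wid_pos j
  have ht : tall i ≤ tall j := by
    rcases hi : i.prism with _ | _ <;> rcases hj : j.prism with _ | _ <;> simp only [tall, hi, hj] <;>
      simp
    · linarith
    · linarith [wid_le i]
    · exfalso
      have h' : (i.rank : ℕ) < (j.rank : ℕ) := h
      cases i <;> cases j <;> simp [Kind.prism, Kind.rank] at hi hj h' <;> omega
  have h2 : (64 * wid i) * (64 * wid i) ≤ wid j * wid j :=
    mul_le_mul hw hw (by positivity) (by positivity)
  have := mul_le_mul h2 ht (tall_pos i).le (by positivity)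
  nlinarith

section Tiling

variable {A : Set R3} (hA : RTiles A Omega)
include hA

lemma separated {a b : R3} (ha : a ∈ A) (hb : b ∈ A) {k l : Z2} (hk : k ∈ cells) (hl : l ∈ cells)
    (h0 : |(b 0 + l.1) - (a 0 + k.1)| ≤ 3 / 4) (h1 : |(b 1 + l.2) - (a 1 + k.2)| ≤ 3 / 4)
    (h2 : |b 2 - a 2| < 1) : a = b ∧ k = l := by
  have hab : a = b := by
    by_contra hne
    set u := a 0 + (k.1 : ℝ)
    set v := b 0 + (l.1 : ℝ)
    set u' := a 1 + (k.2 : ℝ)
    set v' := b 1 + (l.2 : ℝ)
    set s := if u ≤ v then u + 15 / 16 else u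
    set s' := if u' ≤ v' then v' else v' + 15 / 16
    refine box_pos (p := ![s, s', max (a 2) (b 2)])
      (w := ![1 / 16, 1 / 16, min (a 2) (b 2) + 1 - max (a 2) (b 2)]) (fun n => ?_)
      (measure_mono_null ?_ (hA.2 a ha b hb hne))
    · have := abs_lt.mp h2
      fin_cases n <;> simp
      rcases le_total (a 2) (b 2) with e | e <;> simp [e] <;> linarith
    · intro x hx
      obtain ⟨x0, x1, x2⟩ : (s ≤ x 0 ∧ x 0 < s + 1 / 16) ∧ (s' ≤ x 1 ∧ x 1 < s' + 1 / 16) ∧
          (max (a 2) (b 2) ≤ x 2 ∧ x 2 < max (a 2) (b 2) +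
            (min (a 2) (b 2) + 1 - max (a 2) (b 2))) := by
        simpa [mem_box, Fin.forall_fin_succ] using hx
      have := le_max_left (a 2) (b 2)
      have := le_max_right (a 2) (b 2)
      have := min_le_left (a 2) (b 2)
      have := min_le_right (a 2) (b 2)
      have := abs_le.mp h0
      have := abs_le.mp h1
      simp only [s, s', u, v, u', v'] at *
      refine ⟨side_mem hk (mem_cellBox.mpr ?_) ?_, side_mem hl (mem_cellBox.mpr ?_) ?_⟩ <;>
        simp only [Pi.sub_apply]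
      · split_ifs at x0 x1 <;> refine ⟨⟨?_, ?_⟩, ⟨?_, ?_⟩, ?_, ?_⟩ <;> linarith
      · split_ifs at x0
        · exact Or.inr (Or.inl (by linarith))
        · exact Or.inl (by linarith)
      · split_ifs at x0 x1 <;> refine ⟨⟨?_, ?_⟩, ⟨?_, ?_⟩, ?_, ?_⟩ <;> linarith
      · split_ifs at x1
        · exact Or.inr (Or.inr (Or.inl (by linarith)))
        · exact Or.inr (Or.inr (Or.inr (by linarith)))
  refine ⟨hab, ?_⟩
  subst hab
  have key : ∀ m n : ℤ, ∀ c : ℝ, |(c + n) - (c + m)| ≤ 3 / 4 → m = n := by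
    intro m n c h
    by_contra hne
    have h1 : (1 : ℤ) ≤ |n - m| := Int.one_le_abs (sub_ne_zero.mpr (Ne.symm hne))
    have h2 : (1 : ℝ) ≤ |(n : ℝ) - m| := by exact_mod_cast h1
    rw [add_sub_add_left_eq_sub] at h
    linarith
  exact Prod.ext (key _ _ _ h0) (key _ _ _ h1)

lemma countable_A : A.Countable := by
  have hk : k0 ∈ cells := by decide
  have : Set.InjOn (fun (x : R3) (n : Fin 3) => ⌊2 * x n⌋) A := by
    intro a ha b hb e
    have near : ∀ n, |b n - a n| < 1 / 2 := fun n => by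
      have en : ⌊2 * a n⌋ = ⌊2 * b n⌋ := congrFun e n
      have := Int.abs_sub_lt_one_of_floor_eq_floor en
      rw [abs_lt] at this ⊢; constructor <;> linarith
    refine (separated hA ha hb hk hk ?_ ?_ ((near 2).trans (by norm_num))).1 <;>
      rw [add_sub_add_right_eq_sub]
    · linarith [near 0]
    · linarith [near 1]
  exact Set.countable_of_injective_of_countable_image this (Set.to_countable _)

/-- No peg of kind `j` sits exactly in the hole `q` of the translate `a`. -/
def Open (A : Set R3) (a : R3) (j : Kind) (q : Piece) : Prop :=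
  ¬ ∃ b ∈ A, ∃ r ∈ pegs j, b 0 + r.1.1 = a 0 + q.1.1 ∧ b 1 + r.1.2 = a 1 + q.1.2 ∧
    (j.prism = false → b 2 + dz r = a 2 + dz q)

/-- A hole is never open to a peg of the same translate. -/
lemma self_peg {a : R3} (ha : a ∈ A) {i j : Kind} {q r : Piece} (hq : q ∈ holes j)
    (hnot : Open A a j q) (hr : r ∈ pegs i) {y : R3} (hy : y ∈ pieceBox i r)
    (hy' : y ∈ pieceBox j q) : False := by
  obtain ⟨i0, i1, i2⟩ := mem_pieceBox.mp hy
  obtain ⟨j0, j1, j2⟩ := mem_pieceBox.mp hy'
  obtain ⟨m0, m1, m2⟩ := hole_mid hq hy'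
  have := wid_le i
  have := wid_pos i
  have := xlow_mem i
  have e1 : r.1 = q.1 := Prod.ext
    (int_eq_of_Ico (x := y 0) ⟨by linarith, by linarith⟩ ⟨by linarith, by linarith⟩)
    (int_eq_of_Ico (x := y 1) ⟨by linarith, by linarith⟩ ⟨by linarith, by linarith⟩)
  rcases pegs_off i r hr with h | h | ⟨hp, he, hm⟩
  · exact h (e1 ▸ (holes_cells j q hq).1)
  · rw [e1] at i0
    obtain rfl := slot_eq (y := y 0 - q.1.1) (y' := y 0 - q.1.1) (i := i) (j := j)
      ⟨by linarith, by linarith⟩ ⟨by linarith, by linarith⟩ (by simp)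
    obtain rfl := holes_fun _ _ h _ hq e1
    exact hnot ⟨a, ha, r, hr, rfl, rfl, fun _ => rfl⟩
  · simp only [zlow, tall, hp, dz, he] at i2
    rcases hm with hm | hm <;> rw [hm] at i2 <;> simp at i2 <;> linarith

omit hA in
lemma corner_apply (b : R3) (i : Kind) (r : Piece) :
    (b + pieceCorner i r) 0 = b 0 + r.1.1 + xlow i ∧
      (b + pieceCorner i r) 1 = b 1 + r.1.2 + 1 / 4 ∧
      (b + pieceCorner i r) 2 = b 2 + (zlow i + dz r) := by
  refine ⟨?_, ?_, ?_⟩ <;>
    simp only [Pi.add_apply, pieceCorner, Matrix.cons_val] <;> ring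

omit hA in
lemma height_window {i j : Kind} {u v d : ℝ} (hd0 : 0 ≤ d) (hd1 : d ≤ 1 / 8)
    (hd : j.prism = true → d = 0) (hi : zlow i + u ≤ v ∧ v < zlow i + u + tall i)
    (hj : zlow j + d ≤ v ∧ v < zlow j + d + tall j) : -1 < u ∧ u < 1 := by
  have := wid_le i
  have := wid_le j
  rcases hi' : i.prism with _ | _ <;> rcases hj' : j.prism with _ | _ <;>
    simp [zlow, tall, hi', hj'] at hi hj <;>
    first | (constructor <;> linarith) | (have := hd hj'; constructor <;> linarith)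

/-- A peg that meets a hole lies in it. -/
lemma inside {a b : R3} (ha : a ∈ A) (hb : b ∈ A) {i j : Kind} {q r : Piece} (hq : q ∈ holes j)
    (hr : r ∈ pegs i) (hnot : Open A a j q)
    (hpos : volume (moved i b r ∩ moved j a q) ≠ 0) :
    i.rank < j.rank ∧ |b 0 + r.1.1 + xlow i - (a 0 + q.1.1 + xlow j)| ≤ 1 / 64 ∧
      |b 1 + r.1.2 - (a 1 + q.1.2)| ≤ 1 / 64 ∧
      -1 < b 2 + dz r - a 2 ∧ b 2 + dz r - a 2 < 1 := by
  obtain ⟨x, hx1, hx2⟩ := nonempty_of_measure_ne_zero hpos
  obtain ⟨dq0, dq1, dq2⟩ := dz_holes hq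
  have hqc := (holes_cells j q hq).1
  obtain ⟨i0, i1, i2⟩ := mem_pieceBox.mp (mem_moved.mp hx1)
  obtain ⟨j0, j1, j2⟩ := mem_pieceBox.mp (mem_moved.mp hx2)
  obtain ⟨m0, m1, m2⟩ := hole_mid hq (mem_moved.mp hx2)
  simp only [Pi.sub_apply] at i0 i1 i2 j0 j1 j2 m0 m1 m2
  have := wid_le i
  have := wid_le j
  have := wid_pos i
  have := wid_pos j
  have hne : b ≠ a := by
    intro e
    subst e
    exact self_peg hA ha hq hnot hr (mem_moved.mp hx1) (mem_moved.mp hx2)
  obtain ⟨eP0, eP1, eP2⟩ := corner_apply b i r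
  set P := b + pieceCorner i r
  obtain ⟨eH0, eH1, eH2⟩ := corner_apply a j q
  set lo := max (P 2) (a 2) with hlo
  set hi := min (P 2 + tall i) (a 2 + 1) with hhi
  have hlohi : lo < hi :=
    lt_of_le_of_lt (b := x 2) (max_le (by linarith) (by linarith))
      (lt_min (by linarith) (by linarith))
  have hnull : volume (box ![P 0, P 1, lo] ![wid i, wid i, hi - lo] \ moved j a q) = 0 := by
    refine measure_mono_null ?_ (hA.2 a ha b hb hne.symm)
    rintro y ⟨hy, hyH⟩
    obtain ⟨y0, y1, y2⟩ : (P 0 ≤ y 0 ∧ y 0 < P 0 + wid i) ∧ (P 1 ≤ y 1 ∧ y 1 < P 1 + wid i) ∧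
        (lo ≤ y 2 ∧ y 2 < lo + (hi - lo)) := by
      simpa [mem_box, Fin.forall_fin_succ] using hy
    have := le_max_left (P 2) (a 2)
    have := le_max_right (P 2) (a 2)
    have := min_le_left (P 2 + tall i) (a 2 + 1)
    have := min_le_right (P 2 + tall i) (a 2 + 1)
    have := xlow_mem j
    have hyc : y - a ∈ cellBox q.1 := by
      refine mem_cellBox.mpr ?_
      simp only [Pi.sub_apply]
      refine ⟨⟨?_, ?_⟩, ⟨?_, ?_⟩, ?_, ?_⟩ <;> linarith
    refine ⟨Or.inl ⟨⟨q.1, hqc, hyc⟩, ?_⟩, Or.inr ⟨i, r, hr, ?_⟩⟩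
    · rintro ⟨l, s, hs, hys⟩
      have es : s.1 = q.1 := cell_unique (hole_cell hs hys) hyc
      obtain ⟨s0, -, -⟩ := mem_pieceBox.mp hys
      simp only [Pi.sub_apply, es] at s0
      obtain rfl := slot_eq (y := y 0 - a 0 - q.1.1) (y' := x 0 - a 0 - q.1.1) (i := l) (j := j)
        ⟨by linarith, by linarith⟩ ⟨by linarith, by linarith⟩
        (by rw [abs_lt]; constructor <;> linarith)
      obtain rfl := holes_fun _ _ hs _ hq es
      exact hyH (mem_moved.mpr hys)
    · rw [mem_pieceBox]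
      simp only [Pi.sub_apply]
      refine ⟨⟨?_, ?_⟩, ⟨?_, ?_⟩, ?_, ?_⟩ <;> linarith
  have sub := box_ae_sub (fun n => by fin_cases n <;> simp [wid_pos, hlohi]) hnull
  have s0 : a 0 + q.1.1 + xlow j ≤ P 0 ∧ P 0 + wid i ≤ a 0 + q.1.1 + xlow j + wid j := by
    have := sub 0
    rw [eH0] at this
    simpa using this
  have s1 : a 1 + q.1.2 + 1 / 4 ≤ P 1 ∧ P 1 + wid i ≤ a 1 + q.1.2 + 1 / 4 + wid j := by
    have := sub 1
    rw [eH1] at this
    simpa using this
  have s2 : a 2 + (zlow j + dz q) ≤ lo ∧ hi ≤ a 2 + (zlow j + dz q) + tall j := by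
    have := sub 2
    rw [eH2] at this
    simpa using this
  refine ⟨?_, by rw [abs_le]; constructor <;> linarith, by rw [abs_le]; constructor <;> linarith,
    height_window (i := i) (j := j) (v := x 2 - a 2) (u := b 2 + dz r - a 2) dq0 dq1 dq2
      ⟨by linarith, by linarith⟩ ⟨by linarith, by linarith⟩⟩
  rcases lt_trichotomy i.rank j.rank with h | h | h
  · exact h
  · exfalso
    obtain rfl := Kind.rank_injective h
    refine hnot ⟨b, hb, r, hr, by linarith, by linarith, fun hp => ?_⟩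
    have hz : zlow i = 1 / 4 := by simp [zlow, hp]
    have ht : tall i = wid i := by simp [tall, hp]
    have e1 : lo = P 2 := max_eq_left (by linarith)
    have e2 : hi = P 2 + tall i := min_eq_left (by linarith)
    linarith [s2.1, s2.2]
  · have := wid_step h; linarith

/-- Every hole of a translate is filled by a peg of the same kind. -/
lemma step {a : R3} (ha : a ∈ A) {j : Kind} {q : Piece} (hq : q ∈ holes j) :
    ∃ b ∈ A, ∃ r ∈ pegs j, b 0 + r.1.1 = a 0 + q.1.1 ∧ b 1 + r.1.2 = a 1 + q.1.2 ∧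
      (j.prism = false → b 2 + dz r = a 2 + dz q) := by
  classical
  by_contra hnot
  have hqc := (holes_cells j q hq).1
  set H := moved j a q with hH
  set Bad : Set (Kind × R3 × Piece) :=
    {t | t.2.1 ∈ A ∧ t.2.2 ∈ pegs t.1 ∧ volume (moved t.1 t.2.1 t.2.2 ∩ H) ≠ 0}
  have inside : ∀ t ∈ Bad, t.1.rank < j.rank ∧
      |t.2.1 0 + t.2.2.1.1 + xlow t.1 - (a 0 + q.1.1 + xlow j)| ≤ 1 / 64 ∧
      |t.2.1 1 + t.2.2.1.2 - (a 1 + q.1.2)| ≤ 1 / 64 ∧
      -1 < t.2.1 2 + dz t.2.2 - a 2 ∧ t.2.1 2 + dz t.2.2 - a 2 < 1 :=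
    fun t ht => inside hA ha ht.1 hq ht.2.1 hnot ht.2.2
  set φ : Kind × R3 × Piece → Kind × Z2 × (ℤ × ℤ) × Bool :=
    fun t => (t.1, stepVec t.1 t.2.2, t.2.2.2, decide (t.2.1 2 + dz t.2.2 < a 2))
  have uniq : Set.InjOn φ Bad := by
    rintro ⟨i, b, r⟩ ht ⟨i', b', r'⟩ ht' e
    simp only [φ, Prod.mk.injEq, decide_eq_decide] at e
    obtain ⟨rfl, est, er, esign⟩ := e
    obtain ⟨-, u0, u1, u2, u3⟩ := inside _ ht
    obtain ⟨-, v0, v1, v2, v3⟩ := inside _ ht'
    dsimp only at u0 u1 u2 u3 v0 v1 v2 v3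
    rw [abs_le] at u0 u1 v0 v1
    have hd : dz r = dz r' := by unfold dz; rw [er]
    obtain ⟨eb, ek⟩ := separated hA ht.1 ht'.1 (origin_cell i r ht.2.1) (origin_cell i r' ht'.2.1)
      (by
        rw [← est, abs_le]; simp only [Prod.fst_sub]; push_cast
        constructor <;> linarith)
      (by
        rw [← est, abs_le]; simp only [Prod.snd_sub]; push_cast
        constructor <;> linarith)
      (by
        rw [abs_lt]
        by_cases hc : b 2 + dz r < a 2
        · have := esign.mp hc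
          constructor <;> linarith
        · have h' : ¬ b' 2 + dz r' < a 2 := fun h => hc (esign.mpr h)
          push Not at hc h'
          constructor <;> linarith)
    subst eb
    rw [← est, sub_left_inj] at ek
    exact Prod.ext rfl (Prod.ext rfl (Prod.ext ek er))
  have cov : volume (H \ ⋃ t ∈ Bad, moved t.1 t.2.1 t.2.2) = 0 := by
    set S : Set (Kind × R3 × Piece) := {t | t.2.1 ∈ A ∧ t.2.2 ∈ pegs t.1}
    have hcount : S.Countable := by
      refine Set.Countable.mono ?_ ((List.finite_toSet Kind.all).countable.prod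
        ((countable_A hA).prod (List.finite_toSet (Kind.all.flatMap pegs)).countable))
      rintro ⟨i, b, r⟩ ⟨hb, hr⟩
      exact Set.mem_prod.mpr ⟨Kind.mem_all i,
        Set.mem_prod.mpr ⟨hb, List.mem_flatMap.mpr ⟨i, Kind.mem_all i, hr⟩⟩⟩
    have small : volume (⋃ t ∈ S \ Bad, moved t.1 t.2.1 t.2.2 ∩ H) = 0 := by
      refine (measure_biUnion_null_iff (hcount.mono Set.sdiff_subset)).mpr fun t ht => ?_
      by_contra hne
      exact ht.2 ⟨ht.1.1, ht.1.2, hne⟩
    refine measure_mono_null ?_ (measure_union_null hA.1 small)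
    rintro x ⟨hxH, hxn⟩
    by_cases hc : ∀ b ∈ A, x - b ∉ Omega
    · exact Or.inl hc
    push Not at hc
    obtain ⟨b, hb, hxb⟩ := hc
    obtain ⟨m0, m1, m2⟩ := hole_mid hq (mem_moved.mp hxH)
    rcases hxb with ⟨⟨l, hl, hxl⟩, hnh⟩ | ⟨i, r, hr, hxr⟩
    · obtain ⟨l0, l1, l2⟩ := mem_cellBox.mp hxl
      simp only [Pi.sub_apply] at m0 m1 m2 l0 l1 l2
      obtain ⟨rfl, -⟩ := separated hA ha hb hqc hl
        (by rw [abs_le]; constructor <;> linarith) (by rw [abs_le]; constructor <;> linarith)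
        (by rw [abs_lt]; constructor <;> linarith)
      exact absurd ⟨j, q, hq, mem_moved.mp hxH⟩ hnh
    · have hm : x ∈ moved i b r := mem_moved.mpr hxr
      by_cases hbad : (i, b, r) ∈ Bad
      · exact absurd (Set.mem_biUnion (x := (i, b, r)) hbad hm) hxn
      · exact Or.inr (Set.mem_biUnion (x := (i, b, r)) ⟨⟨hb, hr⟩, hbad⟩ ⟨hm, hxH⟩)
  have img : φ '' Bad ⊆ ↑pegTypes := by
    rintro _ ⟨⟨i, b, r⟩, ⟨-, hr, -⟩, rfl⟩
    simp only [pegTypes, Finset.mem_coe, List.mem_toFinset, List.mem_flatMap, φ]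
    refine ⟨i, Kind.mem_all i, r, hr, ?_⟩
    by_cases h : b 2 + dz r < a 2 <;> simp [h]
  have fin : Bad.Finite :=
    Set.Finite.of_finite_image (pegTypes.finite_toSet.subset img) uniq
  set V : ℝ := wid j * wid j * tall j
  have hV : 0 < V := by have := wid_pos j; have := tall_pos j; positivity
  have h1 : volume H ≤ ∑ t ∈ fin.toFinset, volume (moved t.1 t.2.1 t.2.2) := by
    calc volume H ≤ volume (⋃ t ∈ fin.toFinset, moved t.1 t.2.1 t.2.2) := by
          refine measure_mono_ae (ae_le_set.mpr ?_)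
          simpa using cov
      _ ≤ _ := measure_biUnion_finset_le _ _
  have h2 : ∑ t ∈ fin.toFinset, volume (moved t.1 t.2.1 t.2.2) ≤
      fin.toFinset.card • ENNReal.ofReal (V / 4096) := by
    refine Finset.sum_le_card_nsmul _ _ _ fun t ht => ?_
    rw [vol_moved]
    exact ENNReal.ofReal_le_ofReal (peg_vol_le (inside t (fin.mem_toFinset.mp ht)).1)
  have hc : fin.toFinset.card ≤ 44 := by
    refine le_trans ?_ pegTypes_card
    refine Finset.card_le_card_of_injOn φ (fun t ht => ?_) (fun t ht t' ht' e => ?_)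
    · exact img ⟨t, fin.mem_toFinset.mp ht, rfl⟩
    · exact uniq (fin.mem_toFinset.mp ht) (fin.mem_toFinset.mp ht') e
  have h3 : fin.toFinset.card • ENNReal.ofReal (V / 4096) < volume H := by
    rw [hH, vol_moved, nsmul_eq_mul, ← ENNReal.ofReal_natCast, ← ENNReal.ofReal_mul (by positivity),
      ENNReal.ofReal_lt_ofReal_iff hV]
    have : (fin.toFinset.card : ℝ) ≤ 44 := by exact_mod_cast hc
    nlinarith
  exact absurd (h1.trans h2) (not_le.mpr h3)

/-- Two translates do not put pegs of one kind in the same place. -/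
lemma peg_apart {b b' : R3} (hb : b ∈ A) (hb' : b' ∈ A) {j : Kind} {r r' : Piece}
    (hr : r ∈ pegs j) (hr' : r' ∈ pegs j)
    (h : b + pieceCorner j r = b' + pieceCorner j r') : b = b' := by
  by_contra hne
  refine box_pos (p := b + pieceCorner j r) (w := ![wid j, wid j, tall j]) (moved_sides j)
    (measure_mono_null (fun x hx => ?_) (hA.2 b hb b' hb' hne))
  refine ⟨Or.inr ⟨j, r, hr, mem_moved.mp hx⟩, Or.inr ⟨j, r', hr', mem_moved.mp ?_⟩⟩
  show x ∈ box (b' + pieceCorner j r') _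
  rwa [← h]

/-! ### Periods and alignment -/

omit hA in
lemma ext3 {x y : R3} (h0 : x 0 = y 0) (h1 : x 1 = y 1) (h2 : x 2 = y 2) : x = y := by
  funext k; fin_cases k <;> assumption

lemma per_up (a : R3) : a + ![0, 0, 1] ∈ A ↔ a ∈ A := by
  constructor <;> intro h
  · obtain ⟨b, hb, r, hr, e0, e1, e2⟩ := step hA h (j := .up) (q := (k0, 0, 0)) (by simp [holes])
    simp only [pegs, List.mem_singleton] at hr
    subst hr
    have := e2 rfl
    simp [dz] at e0 e1 this
    rwa [show a = b from ext3 (by linarith) (by linarith) (by linarith)]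
  · obtain ⟨b, hb, r, hr, e0, e1, e2⟩ := step hA h (j := .down) (q := (k0, 0, 0)) (by simp [holes])
    simp only [pegs, List.mem_singleton] at hr
    subst hr
    have := e2 rfl
    simp [dz] at e0 e1 this
    rwa [show a + ![0, 0, 1] = b from
      ext3 (by simp; linarith) (by simp; linarith) (by simp; linarith)]

lemma per_long (a : R3) : a + ![48, 0, 0] ∈ A ↔ a ∈ A := by
  constructor <;> intro h
  · obtain ⟨b, hb, r, hr, e0, e1, e2⟩ := step hA h (j := .left) (q := (k0, 0, 0)) (by simp [holes])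
    simp only [pegs, List.mem_singleton] at hr
    subst hr
    have := e2 rfl
    simp [dz, k0] at e0 e1 this
    rwa [show a = b from ext3 (by linarith) (by linarith) (by linarith)]
  · obtain ⟨b, hb, r, hr, e0, e1, e2⟩ := step hA h (j := .right) (q := (k0, 0, 0)) (by simp [holes])
    simp only [pegs, List.mem_singleton] at hr
    subst hr
    have := e2 rfl
    simp [dz, k0] at e0 e1 this
    rwa [show a + ![48, 0, 0] = b from
      ext3 (by simp; linarith) (by simp; linarith) (by simp; linarith)]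

lemma per_vert (a : R3) (n : ℤ) : a + ![0, 0, (n : ℝ)] ∈ A ↔ a ∈ A := by
  induction n using Int.induction_on with
  | zero => rw [show a + ![0, 0, ((0 : ℤ) : ℝ)] = a from ext3 (by simp) (by simp) (by simp)]
  | succ m ih =>
    rw [← ih, ← per_up hA (a + ![0, 0, ((m : ℤ) : ℝ)])]
    congr! 1
    refine ext3 ?_ ?_ ?_ <;> simp [Matrix.vecHead, Matrix.vecTail]
    ring
  | pred m ih =>
    rw [← ih, ← per_up hA (a + ![0, 0, ((-(m : ℤ) - 1 : ℤ) : ℝ)])]
    congr! 1
    refine ext3 ?_ ?_ ?_ <;> simp [Matrix.vecHead, Matrix.vecTail]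
    ring

omit hA in
/-- The horizontal positions of the cells of class `i`. -/
def IsCol (A : Set R3) (i : Fin 3) (p : ℝ × ℝ) : Prop :=
  ∃ a ∈ A, ∃ k ∈ classCells i, p = (a 0 + (k.1 : ℝ), a 1 + (k.2 : ℝ))

omit hA in
lemma class_cell {i : Fin 3} {k : Z2} (h : k ∈ classCells i) :
    k ∈ cells ∧ k.1 % 3 = ((i : ℕ) : ℤ) := by
  simpa [classCells] using h

lemma col_left {i : Fin 3} {p : ℝ × ℝ} (h : IsCol A (i + 1) p) : IsCol A i (p - (1, 0)) := by
  obtain ⟨a, ha, k, hk, rfl⟩ := h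
  obtain ⟨b, hb, r, hr, e0, e1, -⟩ := step hA ha (j := .xs i) (q := (k, 0, 0))
    (List.mem_map.mpr ⟨k, hk, rfl⟩)
  obtain ⟨k', hk', rfl⟩ := List.mem_map.mp hr
  simp at e0 e1
  exact ⟨b, hb, k', hk', Prod.ext (by simp; linarith) (by simp; linarith)⟩

lemma col_down {i : Fin 3} {p : ℝ × ℝ} (h : IsCol A i p) : IsCol A i (p - (0, 1)) := by
  obtain ⟨a, ha, k, hk, rfl⟩ := h
  obtain ⟨b, hb, r, hr, e0, e1, -⟩ := step hA ha (j := .ys i) (q := (k, 0, 0))
    (List.mem_map.mpr ⟨k, hk, rfl⟩)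
  obtain ⟨k', hk', rfl⟩ := List.mem_map.mp hr
  simp at e0 e1
  exact ⟨b, hb, k', hk', Prod.ext (by simp; linarith) (by simp; linarith)⟩

lemma col_back {i : Fin 3} {p : ℝ × ℝ} (h : IsCol A i p) (m n : ℕ) :
    ∃ i' : Fin 3, (((i' : ℕ) : ℤ) - ((i : ℕ) : ℤ) + m) % 3 = 0 ∧
      IsCol A i' (p - ((m : ℝ), (n : ℝ))) := by
  have hn : IsCol A i (p - (0, (n : ℝ))) := by
    induction n with
    | zero => convert h using 1; ext <;> simp
    | succ n ih =>
      convert col_down hA ih using 1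
      ext <;> simp; ring
  induction m with
  | zero =>
    refine ⟨i, by simp, ?_⟩
    convert hn using 1
    ext <;> simp
  | succ m ih =>
    obtain ⟨i', hi', hc⟩ := ih
    have e : i' + 2 + 1 = i' := by clear hi' hc; revert i'; decide
    refine ⟨i' + 2, ?_, ?_⟩
    · simp only [Fin.val_add, Fin.val_two] at *
      omega
    · convert col_left hA (i := i' + 2) (e.symm ▸ hc) using 1
      ext <;> simp; ring

/-- Two cells in one column belong to translates that differ by a vertical period. -/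
lemma col_sep {a b : R3} (ha : a ∈ A) (hb : b ∈ A) {k l : Z2} (hk : k ∈ cells) (hl : l ∈ cells)
    (h0 : |(b 0 + l.1) - (a 0 + k.1)| ≤ 3 / 4) (h1 : |(b 1 + l.2) - (a 1 + k.2)| ≤ 3 / 4) :
    k = l ∧ a 0 = b 0 ∧ a 1 = b 1 ∧ ∃ n : ℤ, b 2 = a 2 + n := by
  set n := ⌊b 2 - a 2⌋
  have h2 : |b 2 - (a + ![0, 0, (n : ℝ)]) 2| < 1 := by
    have := Int.floor_le (b 2 - a 2)
    have := Int.lt_floor_add_one (b 2 - a 2)
    simp only [n]
    rw [abs_lt]; simp; constructor <;> linarith
  obtain ⟨e, ek⟩ := separated hA ((per_vert hA a n).mpr ha) hb hk hl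
    (by simpa using h0) (by simpa using h1) h2
  have e0 := congrFun e 0
  have e1 := congrFun e 1
  have e2 := congrFun e 2
  simp at e0 e1 e2
  exact ⟨ek, e0, e1, n, e2.symm⟩

/-- All translations lie in one horizontal coset. -/
lemma aligned {a₀ a : R3} (h₀ : a₀ ∈ A) (ha : a ∈ A) :
    ∃ c : Z2, a 0 = a₀ 0 + 3 * (c.1 : ℝ) ∧ a 1 = a₀ 1 + c.2 := by
  have hk : ((0, 5) : Z2) ∈ classCells 0 := by decide
  set z : Z2 := (⌊a 0 - a₀ 0 + 1 / 2⌋, ⌊a 1 - a₀ 1 + 1 / 2⌋)
  obtain ⟨i, hi, b, hb, k, hkc, e⟩ := col_back hA ⟨a, ha, _, hk, rfl⟩ z.1.toNat z.2.toNat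
  obtain ⟨i', hi', b', hb', k', hkc', e'⟩ :=
    col_back hA ⟨a₀, h₀, _, hk, rfl⟩ (-z.1).toNat (-z.2).toNat
  simp only [Prod.mk_sub_mk, Prod.mk.injEq] at e e'
  have r1 : ((z.1.toNat : ℕ) : ℝ) - ((-z.1).toNat : ℕ) = (z.1 : ℝ) := by
    exact_mod_cast Int.toNat_sub_toNat_neg z.1
  have r2 : ((z.2.toNat : ℕ) : ℝ) - ((-z.2).toNat : ℕ) = (z.2 : ℝ) := by
    exact_mod_cast Int.toNat_sub_toNat_neg z.2
  have := Int.floor_le (a 0 - a₀ 0 + 1 / 2)
  have := Int.lt_floor_add_one (a 0 - a₀ 0 + 1 / 2)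
  have := Int.floor_le (a 1 - a₀ 1 + 1 / 2)
  have := Int.lt_floor_add_one (a 1 - a₀ 1 + 1 / 2)
  simp only [z] at r1 r2 e e'
  obtain ⟨ek, f0, f1, -⟩ := col_sep hA hb' hb (class_cell hkc').1 (class_cell hkc).1
    (by rw [abs_le]; push_cast at e e'; constructor <;> linarith)
    (by rw [abs_le]; push_cast at e e'; constructor <;> linarith)
  rw [ek] at hkc' e'
  have h3 : (3 : ℤ) ∣ z.1 := by
    have h1 := (class_cell hkc).2
    have h2 := (class_cell hkc').2
    have h4 := Int.toNat_sub_toNat_neg z.1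
    have := i.isLt
    have := i'.isLt
    omega
  obtain ⟨c, hc⟩ := h3
  refine ⟨(c, z.2), ?_, ?_⟩
  · have : (z.1 : ℝ) = 3 * c := by exact_mod_cast hc
    simp only [z] at this ⊢
    push_cast at e e'
    linarith
  · simp only [z]
    push_cast at e e'
    linarith

omit hA in
@[simp] lemma emb_zero (c : Pt) : emb c 0 = 3 * (c.1.1 : ℝ) := by simp [emb, hpos]

omit hA in
@[simp] lemma emb_one (c : Pt) : emb c 1 = (c.1.2 : ℝ) := by simp [emb, hpos]

omit hA in
@[simp] lemma emb_two (c : Pt) : emb c 2 = c.2 := by simp [emb]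

theorem forcing : ∃ a₀ : R3, (∀ a ∈ A, ∃ c : Pt, a = a₀ + emb c) ∧
    Shear {c : Pt | a₀ + emb c ∈ A} := by
  have ne : A.Nonempty := by
    by_contra h
    rw [Set.not_nonempty_iff_eq_empty] at h
    subst h
    refine box_pos (p := fun _ : Fin 3 => (0 : ℝ)) (w := fun _ => 1) (fun _ => one_pos)
      (measure_mono_null (fun x _ => by simp) hA.1)
  obtain ⟨a₀, h₀⟩ := ne
  have coset : ∀ a ∈ A, ∃ c : Pt, a = a₀ + emb c := fun a ha => by
    obtain ⟨c, e0, e1⟩ := aligned hA h₀ ha
    exact ⟨(c, a 2 - a₀ 2), ext3 (by simp [e0]) (by simp [e1]) (by simp)⟩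
  refine ⟨a₀, coset, ⟨?_, ?_, ?_, ?_, ?_, ?_, ?_⟩⟩
  · intro c
    show a₀ + emb (c + (0, 1)) ∈ A ↔ a₀ + emb c ∈ A
    rw [← per_up hA (a₀ + emb c)]
    congr! 1
    refine ext3 ?_ ?_ ?_ <;> simp; ring
  · intro p z z' hz hz'
    obtain ⟨-, -, -, n, hn⟩ := col_sep hA (k := k0) (l := k0) hz hz' (by decide) (by decide)
      (by simp; norm_num) (by simp; norm_num)
    exact ⟨n, by simp at hn; linarith⟩
  · intro c
    show a₀ + emb (c + pl) ∈ A ↔ a₀ + emb c ∈ A
    rw [← per_long hA (a₀ + emb c)]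
    congr! 1
    refine ext3 ?_ ?_ ?_ <;> simp [pl, ll] <;> ring
  · intro c hc
    set a := a₀ + emb c
    have ea : a₀ + emb (c - pa) = a - emb pa := by
      refine ext3 ?_ ?_ ?_ <;> simp [a] <;> ring
    have eb : a₀ + emb (c - pb) = a - emb pb := by
      refine ext3 ?_ ?_ ?_ <;> simp [a] <;> ring
    have both : ¬ (a₀ + emb (c - pa) ∈ A ∧ a₀ + emb (c - pb) ∈ A) := by
      rintro ⟨u, v⟩
      have := peg_apart hA u v (j := .sw) (r := ((0, 9), 0, 1)) (r' := ((24, 9), 0, 0))
        (by simp [pegs]) (by simp [pegs]) (by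
          refine ext3 ?_ ?_ ?_ <;> simp [pieceCorner, dz, pa, pb, la, lb] <;> ring)
      have := congrFun this 0
      simp [pa, pb, la, lb] at this
      linarith
    obtain ⟨b, hb, r, hr, e0, e1, e2⟩ := step hA hc (j := .sw) (q := ((0, 5), 0, 0))
      (by simp [holes])
    simp only [pegs, List.mem_cons, List.not_mem_nil, or_false] at hr
    have e2 := e2 rfl
    rcases hr with rfl | rfl <;> simp [dz] at e0 e1 e2
    · have : b = a₀ + emb (c - pa) := by
        refine ext3 ?_ ?_ ?_ <;> simp [pa, la] <;> linarith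
      subst this
      exact Or.inl ⟨hb, fun v => both ⟨hb, v⟩⟩
    · have : b = a₀ + emb (c - pb) := by
        refine ext3 ?_ ?_ ?_ <;> simp [pb, lb] <;> linarith
      subst this
      exact Or.inr ⟨hb, fun u => both ⟨u, hb⟩⟩
  · intro c hc
    have both : ¬ (a₀ + emb (c + pa) ∈ A ∧ a₀ + emb (c + pb) ∈ A) := by
      rintro ⟨u, v⟩
      have := peg_apart hA u v (j := .sw) (r := ((24, 9), 0, 0)) (r' := ((0, 9), 0, 1))
        (by simp [pegs]) (by simp [pegs]) (by
          refine ext3 ?_ ?_ ?_ <;> simp [pieceCorner, dz, pa, pb, la, lb] <;> ring)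
      have := congrFun this 0
      simp [pa, pb, la, lb] at this
    obtain ⟨b, hb, r, hr, e0, e1, e2⟩ := step hA hc (j := .sw) (q := ((24, 13), 0, 1))
      (by simp [holes])
    simp only [pegs, List.mem_cons, List.not_mem_nil, or_false] at hr
    have e2 := e2 rfl
    rcases hr with rfl | rfl <;> simp [dz] at e0 e1 e2
    · have : b = a₀ + emb (c + pb) := by
        refine ext3 ?_ ?_ ?_ <;> simp [pb, lb] <;> linarith
      subst this
      exact Or.inr ⟨hb, fun u => both ⟨u, hb⟩⟩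
    · have : b = a₀ + emb (c + pa) := by
        refine ext3 ?_ ?_ ?_ <;> simp [pa, la] <;> linarith
      subst this
      exact Or.inl ⟨hb, fun v => both ⟨hb, v⟩⟩
  · intro c hc hd
    obtain ⟨h, -⟩ := col_sep hA (k := (24, 13)) (l := (0, 5)) hc hd (by decide) (by decide)
      (by simp [pa, pb, la, lb]; ring_nf; norm_num) (by simp [pa, pb, la, lb]; ring_nf; norm_num)
    simp at h
  · intro i y
    set K : Z2 := fine i y
    obtain ⟨x, hx, hxA⟩ : ∃ x ∈ box ![a₀ 0 + (K.1 : ℝ), a₀ 1 + (K.2 : ℝ), 0] (fun _ => 1 / 16),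
        ∃ a ∈ A, x - a ∈ Omega := by
      by_contra hn
      push Not at hn
      refine box_pos (p := ![a₀ 0 + (K.1 : ℝ), a₀ 1 + (K.2 : ℝ), 0]) (w := fun _ => (1 / 16 : ℝ))
        (fun _ => by norm_num) (measure_mono_null (fun x hx => hn x hx) hA.1)
    obtain ⟨a, ha, hxa⟩ := hxA
    obtain ⟨c, rfl⟩ := coset a ha
    obtain ⟨x0, x1, -⟩ : (a₀ 0 + (K.1 : ℝ) ≤ x 0 ∧ x 0 < a₀ 0 + (K.1 : ℝ) + 1 / 16) ∧
        (a₀ 1 + (K.2 : ℝ) ≤ x 1 ∧ x 1 < a₀ 1 + (K.2 : ℝ) + 1 / 16) ∧
        (0 ≤ x 2 ∧ x 2 < 1 / 16) := by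
      simpa [mem_box, Fin.forall_fin_succ] using hx
    rcases hxa with ⟨⟨l, hl, hxl⟩, -⟩ | ⟨j, r, -, hxr⟩
    · obtain ⟨l0, l1, -⟩ := mem_cellBox.mp hxl
      simp at l0 l1
      have eK1 : K.1 = 3 * c.1.1 + l.1 := int_eq_of_Ico (x := x 0 - a₀ 0)
        ⟨by linarith, by linarith⟩ ⟨by push_cast; linarith, by push_cast; linarith⟩
      have eK2 : K.2 = c.1.2 + l.2 := int_eq_of_Ico (x := x 1 - a₀ 1)
        ⟨by linarith, by linarith⟩ ⟨by push_cast; linarith, by push_cast; linarith⟩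
      obtain ⟨i', -, f, hf, rfl⟩ : ∃ i', i' ∈ List.finRange 3 ∧ ∃ f ∈ tileList i', fine i' f = l := by
        simpa [cells, List.mem_flatMap] using hl
      simp only [K, fine] at eK1 eK2
      obtain rfl : i' = i := Fin.ext (by omega)
      have ec : y - f = c.1 := Prod.ext (by simp; omega) (by simp; omega)
      refine ⟨f, ⟨List.mem_toFinset.mpr hf, c.2, by rw [ec]; exact ha⟩, ?_⟩
      rintro g ⟨hg, z, hz⟩
      have hgc : fine i' g ∈ cells := List.mem_flatMap.mpr
        ⟨i', List.mem_finRange _, List.mem_map.mpr ⟨g, List.mem_toFinset.mp hg, rfl⟩⟩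
      obtain ⟨h, -⟩ := col_sep hA hz ha hgc hl
        (by simp [fine, ← ec]; ring_nf; norm_num) (by simp [fine, ← ec]; ring_nf; norm_num)
      simp only [fine, Prod.mk.injEq] at h
      exact Prod.ext (by omega) (by omega)
    · exfalso
      obtain ⟨r0, -, -⟩ := mem_pieceBox.mp hxr
      simp at r0
      have := xlow_mem j
      have := wid_pos j
      have e : K.1 = r.1.1 + 3 * c.1.1 := int_eq_of_Ico (x := x 0 - a₀ 0)
        ⟨by linarith, by linarith⟩ ⟨by push_cast; linarith, by push_cast; linarith⟩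
      have : (K.1 : ℝ) = r.1.1 + 3 * c.1.1 := by exact_mod_cast e
      linarith

end Tiling

end Vale.Agent.P043.Shear
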