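/-
P043 (helper18): the tile is bounded and of positive volume, and, given forcing, it has no tiling
with three independent periods.
-/
import Vale.Agent.P043.Shear.Exists

namespace Vale.Agent.P043.Shear

open MeasureTheory
open Vale.Agent.P043 (RTiles Rd)

lemma emb_add (c d : Pt) : emb (c + d) = emb c + emb d := by
  funext k
  fin_cases k <;> simp [emb, hpos]
  ring

lemma emb_injective : Function.Injective emb := by
  intro c d h
  have h0 := congrFun h 0
  have h1 := congrFun h 1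
  have h2 := congrFun h 2
  simp [emb, hpos] at h0 h1 h2
  exact Prod.ext (Prod.ext h0 h1) h2

lemma omega_bounded : Bornology.IsBounded Omega := by
  have bd : ∀ p w : R3, Bornology.IsBounded (box p w) := fun p w =>
    (Metric.isBounded_Icc p fun k => p k + w k).subset fun x hx =>
      ⟨fun k => (mem_box.mp hx k).1, fun k => (mem_box.mp hx k).2.le⟩
  have e : Omega ⊆ (⋃ f ∈ cells.toFinset, cellBox f) ∪
      ⋃ jq ∈ (Kind.all.flatMap fun j => (pegs j).map fun q => (j, q)).toFinset,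
        pieceBox jq.1 jq.2 := by
    rintro x (⟨⟨f, hf, hx⟩, -⟩ | ⟨j, q, hq, hx⟩)
    · exact Or.inl (Set.mem_biUnion (x := f) (by simpa using hf) hx)
    · exact Or.inr (Set.mem_biUnion (x := (j, q))
        (List.mem_toFinset.mpr (List.mem_flatMap.mpr ⟨j, Kind.mem_all j, List.mem_map.mpr ⟨q, hq, rfl⟩⟩)) hx)
  refine (Bornology.IsBounded.union ?_ ?_).subset e
  · exact (Bornology.isBounded_biUnion_finset _).mpr fun f _ => bd _ _
  · exact (Bornology.isBounded_biUnion_finset _).mpr fun jq _ => bd _ _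

lemma omega_pos : 0 < volume Omega := by
  have hf : ((0, 5) : Z2) ∈ cells := by decide +kernel
  refine lt_of_lt_of_le (pos_iff_ne_zero.mpr
    (box_pos (p := ![(0 : ℝ), 5, 0]) (w := fun _ => (1 / 8 : ℝ)) fun _ => by norm_num))
    (measure_mono fun x hx => Or.inl ⟨⟨_, hf, ?_⟩, ?_⟩)
  · have H := mem_box.mp hx
    have a := H 0
    have b := H 1
    have c := H 2
    simp at a b c
    rw [mem_cellBox]
    push_cast
    refine ⟨⟨?_, ?_⟩, ⟨?_, ?_⟩, ?_, ?_⟩ <;> linarith
  · rintro ⟨j, q, -, hm⟩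
    have a := mem_box.mp hx 0
    simp at a
    obtain ⟨⟨h1, h2⟩, -⟩ := mem_pieceBox.mp hm
    have := xlow_mem j
    have := wid_pos j
    have e0 : ((q.1.1 : ℤ) : ℝ) < (0 : ℤ) := by push_cast; linarith
    have e1 : ((-1 : ℤ) : ℝ) < (q.1.1 : ℤ) := by push_cast; linarith
    have := Int.cast_lt.mp e0
    have := Int.cast_lt.mp e1
    omega

/-- Given forcing, no tiling by the tile has three independent periods. -/
theorem no_periods_of_forcing {A : Set R3}
    (hforce : ∃ a0 : R3, (∀ a ∈ A, ∃ c, a = a0 + emb c) ∧ Shear {c | a0 + emb c ∈ A})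
    {v : Fin 3 → R3} (hv : LinearIndependent ℝ v) : ¬ ∀ i x, x + v i ∈ A ↔ x ∈ A := by
  intro hper
  obtain ⟨a0, hA, hS⟩ := hforce
  set S : Set Pt := {c | a0 + emb c ∈ A}
  obtain ⟨f, ⟨-, z, hz⟩, -⟩ := hS.common 0 0
  have hw : ∀ i, ∃ w : Pt, w ∈ stab S ∧ v i = emb w := by
    intro i
    obtain ⟨c, hc⟩ := hA _ ((hper i _).mpr hz)
    refine ⟨c - (0 - f, z), ?_, ?_⟩
    · intro d
      have e : v i = emb (c - (0 - f, z)) := by
        have h := emb_add (c - (0 - f, z)) (0 - f, z)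
        rw [sub_add_cancel] at h
        rw [h] at hc
        linear_combination (norm := abel) hc
      show a0 + emb (d + (c - (0 - f, z))) ∈ A ↔ a0 + emb d ∈ A
      rw [emb_add, ← e, ← add_assoc]
      exact hper i _
    · have h := emb_add (c - (0 - f, z)) (0 - f, z)
      rw [sub_add_cancel] at h
      rw [h] at hc
      linear_combination (norm := abel) hc
  choose w hwS hwv using hw
  have m := fun i j => no_periods hS (w i) (w j) (hwS i) (hwS j)
  have m01 : ((w 0).1.1 : ℝ) * (w 1).1.2 - (w 0).1.2 * (w 1).1.1 = 0 := by exact_mod_cast m 0 1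
  have m02 : ((w 0).1.1 : ℝ) * (w 2).1.2 - (w 0).1.2 * (w 2).1.1 = 0 := by exact_mod_cast m 0 2
  have m12 : ((w 1).1.1 : ℝ) * (w 2).1.2 - (w 1).1.2 * (w 2).1.1 = 0 := by exact_mod_cast m 1 2
  set M : Matrix (Fin 3) (Fin 3) ℝ := Matrix.of v with hM
  have hdet : M.det = 0 := by
    rw [Matrix.det_fin_three]
    simp [hM, hwv, emb, hpos]
    linear_combination (3 * (w 2).2) * m01 - (3 * (w 1).2) * m02 + (3 * (w 0).2) * m12
  have hu : IsUnit M := Matrix.linearIndependent_rows_iff_isUnit.mp hv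
  rw [Matrix.isUnit_iff_isUnit_det, hdet] at hu
  exact not_isUnit_zero hu

/-- Forcing gives the three-dimensional counterexample. -/
theorem euclid_three_of
    (forcing : ∀ A, RTiles A Omega →
      ∃ a0 : R3, (∀ a ∈ A, ∃ c, a = a0 + emb c) ∧ Shear {c | a0 + emb c ∈ A}) :
    ∃ Ω : Set R3, MeasurableSet Ω ∧ Bornology.IsBounded Ω ∧ 0 < volume Ω ∧
      (∃ A, RTiles A Ω) ∧ ∀ A, RTiles A Ω →
        ¬ ∃ v : Fin 3 → R3, LinearIndependent ℝ v ∧ ∀ i x, x + v i ∈ A ↔ x ∈ A :=
  ⟨Omega, omega_measurable, omega_bounded, omega_pos, ⟨_, tiles_of_shear shear_A₀⟩,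
    fun A hA ⟨v, hv, hper⟩ => no_periods_of_forcing (forcing A hA) hv hper⟩

end Vale.Agent.P043.Shear
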